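import Mathlib

/-!
P338 power saving: the two finite networks (statements only).

A network is a list of instructions on wires `0, …, 2 ^ r - 1`.  A gate adds a multiple of one wire
to another one; a call changes the frame of one wire by an element of rank one.  The network applies
the full frame to every wire with fewer than `2 ^ r * m` calls.
-/

namespace Vale.Agent.P338Z

/-- Routing network: `(true, i, j, _, _)`: wire `i` += wire `j`; `(false, i, _, α, β)`: the frame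
of the wire `i` changes by the matrix `α βᵀ / 216`. -/
abbrev QI : Type := Bool × ℕ × ℕ × List ℤ × List ℤ

/-- The matrix `α βᵀ / 216` modulo `Q`. -/
def qmat (m Q : ℕ) (α β : List ℤ) : Matrix (Fin m) (Fin m) (ZMod Q) :=
  fun a b => (216 : ZMod Q)⁻¹ * ((α.getD a 0 * β.getD b 0 : ℤ) : ZMod Q)

/-- One instruction of the routing network. -/
def qrun {M : Type} [AddCommGroup M] (m Q : ℕ) (Φ : Matrix (Fin m) (Fin m) (ZMod Q) → M →+ M)
    (x : ℕ → M) (c : QI) : ℕ → M :=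
  if c.1 then Function.update x c.2.1 (x c.2.1 + x c.2.2.1)
  else Function.update x c.2.1 (Φ (qmat m Q c.2.2.2.1 c.2.2.2.2) (x c.2.1))

/-- The routing network (scalars of characteristic two, rational frames modulo `Q`). -/
structure QNet (r m Δ : ℕ) (prog : List QI) : Prop where
  wire : ∀ c ∈ prog, c.2.1 < 2 ^ r ∧ (c.1 = true → c.2.2.1 < 2 ^ r ∧ c.2.2.1 ≠ c.2.1)
  lab : ∀ c ∈ prog, c.1 = false → c.2.2.2.1.length = m ∧ c.2.2.2.2.length = m ∧
    (∃ x ∈ c.2.2.2.1, x ≠ 0) ∧ (∃ x ∈ c.2.2.2.2, x ≠ 0) ∧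
    ∀ x ∈ c.2.2.2.1 ++ c.2.2.2.2, x ≠ 0 → x.natAbs ∣ Δ
  cnt : (prog.filter fun c => !c.1).length + 1 ≤ 2 ^ r * m
  sem : ∀ Q : ℕ, Q ≡ 1 [MOD Δ] → ∀ (M : Type) [AddCommGroup M], (∀ z : M, z + z = 0) →
    ∀ Φ : Matrix (Fin m) (Fin m) (ZMod Q) → M →+ M, (∀ z, Φ 0 z = z) →
      (∀ g g' z, Φ (g + g') z = Φ g (Φ g' z)) →
      ∀ (x : ℕ → M) (w : ℕ), w < 2 ^ r → prog.foldl (qrun m Q Φ) x w = Φ 1 (x w)

/-- Complex network: `(0, i, j, n, h, _)`: wire `i` += `± 1` or `± 1 / 2` times wire `j` (`n`: minus,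
`h`: half); `(1, i, _, n, _, u)`: the frame of the wire `i` changes by `± qa u`;
`(2, i, _, _, _, u)`: it changes by `2 qa u`. -/
abbrev CI : Type := ℕ × ℕ × ℕ × Bool × Bool × List Bool

/-- The scalar product of a word with a vector. -/
def dotL (m : ℕ) (u : List Bool) (ξ : Fin m → ZMod 2) : ZMod 2 :=
  ∑ a : Fin m, if u.getD a false then ξ a else 0

/-- The frame of rank one of a word. -/
def qa (m : ℕ) (u : List Bool) : (Fin m → ZMod 2) → ZMod 4 :=
  fun ξ => if dotL m u ξ = 0 then 0 else 1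

/-- The full frame: the weight modulo four. -/
def qfull (m : ℕ) : (Fin m → ZMod 2) → ZMod 4 := fun ξ => ∑ a : Fin m, if ξ a = 0 then 0 else 1

/-- The scalar of a gate. -/
noncomputable def csc (n h : Bool) : ℂ := (if n then -1 else 1) * (if h then 1 / 2 else 1)

/-- One instruction of the complex network. -/
noncomputable def crun {M : Type} [AddCommGroup M] [Module ℂ M] (m : ℕ)
    (Φ : ((Fin m → ZMod 2) → ZMod 4) → M →ₗ[ℂ] M) (x : ℕ → M) (c : CI) : ℕ → M :=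
  if c.1 = 0 then Function.update x c.2.1 (x c.2.1 + csc c.2.2.2.1 c.2.2.2.2.1 • x c.2.2.1)
  else if c.1 = 1 then
    Function.update x c.2.1
      (Φ (if c.2.2.2.1 then -qa m c.2.2.2.2.2 else qa m c.2.2.2.2.2) (x c.2.1))
  else Function.update x c.2.1 (Φ (qa m c.2.2.2.2.2 + qa m c.2.2.2.2.2) (x c.2.1))

/-- The complex network (dyadic scalars, binary frames). -/
structure CNet (r m : ℕ) (prog : List CI) : Prop where
  wire : ∀ c ∈ prog, c.2.1 < 2 ^ r ∧ (c.1 = 0 → c.2.2.1 < 2 ^ r ∧ c.2.2.1 ≠ c.2.1)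
  lab : ∀ c ∈ prog, c.1 ≠ 0 → c.2.2.2.2.2.length = m ∧ true ∈ c.2.2.2.2.2
  cnt : (prog.filter fun c => decide (c.1 = 1)).length + 1 ≤ 2 ^ r * m
  sem : ∀ (M : Type) [AddCommGroup M] [Module ℂ M]
    (Φ : ((Fin m → ZMod 2) → ZMod 4) → M →ₗ[ℂ] M), (∀ z, Φ 0 z = z) →
      (∀ g g' z, Φ (g + g') z = Φ g (Φ g' z)) →
      ∀ (x : ℕ → M) (w : ℕ), w < 2 ^ r → prog.foldl (crun m Φ) x w = Φ (qfull m) (x w)

/-- The data of the two networks. -/
structure Nets where
  /-- `2 ^ r` wires -/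
  r : ℕ
  /-- dimension of the frames -/
  m : ℕ
  /-- common multiple of all pivots -/
  Δ : ℕ
  /-- bound of the lengths -/
  S : ℕ
  /-- routing network -/
  qp : List QI
  /-- complex network -/
  cp : List CI

/-- What is used of the networks. -/
structure Nets.Ok (ν : Nets) : Prop where
  q : QNet ν.r ν.m ν.Δ ν.qp
  c : CNet ν.r ν.m ν.cp
  pos : 0 < ν.Δ
  dvd : 216 ∣ ν.Δ
  m8 : 8 ∣ ν.m
  mpos : 0 < ν.m
  rle : ν.r ≤ 60
  mle : ν.m ≤ 2 ^ 17
  S : ν.S = 2 ^ 80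
  lq : ν.qp.length < ν.S
  lc : ν.cp.length < ν.S

/-- The routing network exists (`h = 48`, `m = h ^ 3`). -/
def QNET : Prop := ∃ (Δ : ℕ) (prog : List QI), 0 < Δ ∧ 216 ∣ Δ ∧ prog.length < 2 ^ 80 ∧
  QNet 60 (48 ^ 3) Δ prog

/-- The complex network exists. -/
def CNET : Prop := ∃ prog : List CI, prog.length < 2 ^ 80 ∧ CNet 60 (48 ^ 3) prog

/-- Both networks exist. -/
def NETS : Prop := ∃ ν : Nets, ν.Ok

theorem nets_of (hq : QNET) (hc : CNET) : NETS := by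
  obtain ⟨Δ, qp, h1, h2, h3, h4⟩ := hq
  obtain ⟨cp, h5, h6⟩ := hc
  exact ⟨⟨60, 48 ^ 3, Δ, 2 ^ 80, qp, cp⟩, h4, h6, h1, h2, by norm_num, by norm_num, le_rfl,
    by norm_num, rfl, h3, h5⟩

end Vale.Agent.P338Z
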