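import Vale.Agent.P338Z.Net.QDes

/-!
P338 power saving: the design of the complex network (triples, orthonormal bases of binary words).
-/

namespace Vale.Agent.P338Z.Des

open Matrix

variable {ι : Type} [Fintype ι] [DecidableEq ι]

/-- A bit as a residue modulo four. -/
def lf (z : ZMod 2) : ZMod 4 := if z = 0 then 0 else 1

/-- The weight modulo four. -/
def wt (x : ι → ZMod 2) : ZMod 4 := ∑ i, lf (x i)

theorem lf_add : ∀ x y : ZMod 2, lf (x + y) = lf x + lf y + 2 * lf (x * y) := by decide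

theorem lf_mul : ∀ x y : ZMod 2, lf (x * y) = lf x * lf y := by decide

theorem two_lf_add : ∀ x y : ZMod 2, 2 * lf (x + y) = 2 * lf x + 2 * lf y := by decide

theorem lf_zero : lf 0 = 0 := rfl

theorem two_lf_sum {κ : Type} (s : Finset κ) (f : κ → ZMod 2) :
    2 * lf (∑ i ∈ s, f i) = ∑ i ∈ s, 2 * lf (f i) := by
  classical
  induction s using Finset.induction_on with
  | empty => simp [lf_zero]
  | insert a s ha ih => rw [Finset.sum_insert ha, Finset.sum_insert ha, two_lf_add, ih]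

omit [DecidableEq ι] in
theorem wt_add (x y : ι → ZMod 2) : wt (x + y) = wt x + wt y + 2 * lf (x ⬝ᵥ y) := by
  simp only [wt, dotProduct, two_lf_sum, Pi.add_apply, lf_add, Finset.sum_add_distrib]

omit [DecidableEq ι] in
theorem wt_smul (c : ZMod 2) (x : ι → ZMod 2) : wt (c • x) = wt x * lf c := by
  simp only [wt, Pi.smul_apply, smul_eq_mul, lf_mul, Finset.sum_mul]
  exact Finset.sum_congr rfl fun i _ => mul_comm _ _

omit [DecidableEq ι] in
theorem two_wt (x : ι → ZMod 2) : 2 * wt x = 2 * lf (x ⬝ᵥ x) := by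
  have h : ∀ z : ZMod 2, z * z = z := by decide
  simp only [wt, dotProduct, two_lf_sum, h, Finset.mul_sum]

omit [DecidableEq ι] in
theorem wt_odd {x : ι → ZMod 2} (h : x ⬝ᵥ x = 1) : wt x = 1 ∨ wt x = -1 := by
  have h1 := two_wt x
  rw [h] at h1
  generalize wt x = w at h1
  revert w
  decide

/-- An orthonormal family. -/
def Orth (b : ι → ι → ZMod 2) : Prop := ∀ k l, b k ⬝ᵥ b l = if k = l then 1 else 0

theorem wt_sum {b : ι → ι → ZMod 2} (hb : Orth b) (c : ι → ZMod 2) (s : Finset ι) :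
    wt (∑ k ∈ s, c k • b k) = ∑ k ∈ s, wt (b k) * lf (c k) := by
  induction s using Finset.induction_on with
  | empty => simp [wt, lf_zero]
  | insert a s ha ih =>
    have h0 : (c a • b a) ⬝ᵥ ∑ k ∈ s, c k • b k = 0 := by
      rw [dotProduct_sum]
      refine Finset.sum_eq_zero fun k hk => ?_
      have : a ≠ k := fun e => ha (e ▸ hk)
      rw [smul_dotProduct, dotProduct_smul, hb, if_neg this, smul_zero, smul_zero]
    rw [Finset.sum_insert ha, Finset.sum_insert ha, wt_add, ih, h0, lf_zero, wt_smul, mul_zero,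
      add_zero]

theorem Orth.span {b : ι → ι → ZMod 2} (hb : Orth b) (η : ι → ZMod 2) :
    ∑ k, (b k ⬝ᵥ η) • b k = η := by
  have h1 : Matrix.of b * (Matrix.of b)ᵀ = 1 := by
    ext k l
    rw [Matrix.one_apply, ← hb k l]
    rfl
  have h2 := mul_eq_one_comm.1 h1
  have h3 : (Matrix.of b)ᵀ *ᵥ (Matrix.of b *ᵥ η) = η := by rw [mulVec_mulVec, h2, one_mulVec]
  rw [← h3]
  ext i
  simp only [Finset.sum_apply, Pi.smul_apply, smul_eq_mul, h3]
  rw [← congrFun h3 i]
  exact Finset.sum_congr rfl fun k _ => mul_comm _ _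

theorem Orth.wt {b : ι → ι → ZMod 2} (hb : Orth b) (η : ι → ZMod 2) :
    ∑ k, wt (b k) * lf (b k ⬝ᵥ η) = wt η := by
  rw [← wt_sum hb, hb.span]

/-- The coordinate words. -/
def ce (k : ι) : ι → ZMod 2 := Pi.single k 1

theorem ce_dot (k : ι) (x : ι → ZMod 2) : ce k ⬝ᵥ x = x k := by simp [ce]

theorem dot_ce (k : ι) (x : ι → ZMod 2) : x ⬝ᵥ ce k = x k := by simp [ce]

theorem orth_ce : Orth (ce : ι → ι → ZMod 2) := fun k l => by
  rw [ce_dot, ce, Pi.single_apply]

theorem wt_ce (k : ι) : wt (ce k) = 1 := by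
  have h : ∀ i, lf (ce k i) = if i = k then 1 else 0 := fun i => by
    by_cases h : i = k <;> simp [ce, lf, h]
  simp [wt, h]

/-- A transvection. -/
def tau (c x : ι → ZMod 2) : ι → ZMod 2 := x + (x ⬝ᵥ c) • c

theorem Orth.tau {b : ι → ι → ZMod 2} (hb : Orth b) {c : ι → ZMod 2} (hc : c ⬝ᵥ c = 0) :
    Orth fun k => tau c (b k) := fun k l => by
  rw [← hb k l]
  simp only [Des.tau, add_dotProduct, dotProduct_add, smul_dotProduct, dotProduct_smul, hc,
    smul_eq_mul, dotProduct_comm c (b l)]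
  have h : ∀ u v w : ZMod 2, u + v * w + w * (v + v * 0) = u := by decide
  exact h _ _ _

theorem ind_dot (S T : Finset ι) : ind (ZMod 2) S ⬝ᵥ ind (ZMod 2) T = ((S ∩ T).card : ℕ) :=
  sum_ind_mul _ S T

theorem ind_odd (S : Tr ι) : ind (ZMod 2) S.1 ⬝ᵥ ind (ZMod 2) S.1 = 1 := by
  rw [ind_dot, Finset.inter_self, S.2]
  decide

theorem piv_even (S : Tr ι) {p : ι} (hp : p ∉ S.1) :
    (ind (ZMod 2) S.1 + ce p) ⬝ᵥ (ind (ZMod 2) S.1 + ce p) = 0 := by
  rw [add_dotProduct, dotProduct_add, dotProduct_add, ind_odd, dot_ce, ce_dot, ce_dot]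
  simp [ind, hp, ce]
  decide

theorem tau_piv (S : Finset ι) {p : ι} (hp : p ∉ S) :
    tau (ind (ZMod 2) S + ce p) (ce p) = ind (ZMod 2) S := by
  have h : ce p + ce p = 0 := by
    ext i
    exact CharTwo.add_self_eq_zero _
  rw [tau, ce_dot, show (ind (ZMod 2) S + ce p) p = 1 by simp [ind, hp, ce], one_smul,
    add_left_comm, h, add_zero]

omit [DecidableEq ι] in
theorem tau_fix {c x : ι → ZMod 2} (h : x ⬝ᵥ c = 0) : tau c x = x := by
  rw [tau, h, zero_smul, add_zero]

/-- The words form a decomposition of the weight. -/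
def CDec (l : List (ι → ZMod 2)) : Prop := ∀ η, (l.map fun a => wt a * lf (a ⬝ᵥ η)).sum = wt η

theorem exists_out (A : Finset ι) (h : A.card < Fintype.card ι) : ∃ p, p ∉ A := by
  by_contra h0
  push Not at h0
  rw [Finset.eq_univ_iff_forall.2 h0, Finset.card_univ] at h
  exact lt_irrefl _ h

theorem exists_cc1 (hι : 8 ≤ Fintype.card ι) (T : Tr ι) : ∃ l : List (ι → ZMod 2),
    l.length + 1 = Fintype.card ι ∧ (∀ a ∈ l, a ⬝ᵥ a = 1) ∧ CDec (ind (ZMod 2) T.1 :: l) := by
  obtain ⟨p, hp⟩ := exists_out T.1 (by rw [T.2]; omega)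
  have hb := orth_ce.tau (piv_even T hp)
  refine ⟨(Finset.univ.erase p).toList.map fun k => tau (ind (ZMod 2) T.1 + ce p) (ce k), ?_, ?_,
    fun η => ?_⟩
  · rw [List.length_map, Finset.length_toList, Finset.card_erase_add_one (Finset.mem_univ p),
      Finset.card_univ]
  · intro a ha
    obtain ⟨k, -, rfl⟩ := List.mem_map.1 ha
    exact (hb k k).trans (if_pos rfl)
  · rw [List.map_cons, List.sum_cons, List.map_map, Finset.sum_map_toList, ← hb.wt η,
      ← Finset.add_sum_erase _ _ (Finset.mem_univ p)]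
    simp only [tau_piv _ hp, Function.comp_def]

theorem exists_cc2 (hι : 8 ≤ Fintype.card ι) (S T : Tr ι) (h : (S.1 ∩ T.1).card % 2 = 0) :
    ∃ l : List (ι → ZMod 2), l.length + 2 = Fintype.card ι ∧ (∀ a ∈ l, a ⬝ᵥ a = 1) ∧
      CDec (ind (ZMod 2) S.1 :: ind (ZMod 2) T.1 :: l) := by
  have hc : (S.1 ∪ T.1).card ≤ 6 := (Finset.card_union_le _ _).trans (by rw [S.2, T.2])
  obtain ⟨p, hp⟩ := exists_out (S.1 ∪ T.1) (by omega)
  obtain ⟨q, hq⟩ := exists_out (insert p (S.1 ∪ T.1))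
    (by have := Finset.card_insert_le p (S.1 ∪ T.1); omega)
  simp only [Finset.mem_insert, Finset.mem_union, not_or] at hp hq
  have hb := (orth_ce.tau (piv_even S hp.1)).tau (piv_even T hq.2.2)
  have h1 : tau (ind (ZMod 2) T.1 + ce q) (tau (ind (ZMod 2) S.1 + ce p) (ce p)) =
      ind (ZMod 2) S.1 := by
    rw [tau_piv _ hp.1, tau_fix]
    rw [dotProduct_add, ind_dot, dot_ce, (ZMod.natCast_eq_zero_iff _ 2).2 (by omega)]
    simp [ind, hq.2.1]
  have h2 : tau (ind (ZMod 2) T.1 + ce q) (tau (ind (ZMod 2) S.1 + ce p) (ce q)) =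
      ind (ZMod 2) T.1 := by
    rw [tau_fix (x := ce q), tau_piv _ hq.2.2]
    rw [ce_dot]
    simp [ind, hq.2.1, ce, hq.1]
  refine ⟨((Finset.univ.erase p).erase q).toList.map fun k =>
    tau (ind (ZMod 2) T.1 + ce q) (tau (ind (ZMod 2) S.1 + ce p) (ce k)), ?_, ?_, fun η => ?_⟩
  · rw [List.length_map, Finset.length_toList, ← Finset.card_univ,
      ← Finset.card_erase_add_one (Finset.mem_univ p),
      ← Finset.card_erase_add_one (Finset.mem_erase.2 ⟨hq.1, Finset.mem_univ q⟩)]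
  · intro a ha
    obtain ⟨k, -, rfl⟩ := List.mem_map.1 ha
    exact (hb k k).trans (if_pos rfl)
  · rw [List.map_cons, List.sum_cons, List.map_cons, List.sum_cons, List.map_map,
      Finset.sum_map_toList, ← hb.wt η, ← Finset.add_sum_erase _ _ (Finset.mem_univ p),
      ← Finset.add_sum_erase _ _ (Finset.mem_erase.2 ⟨hq.1, Finset.mem_univ q⟩)]
    simp only [h1, h2, Function.comp_def]

/-- The scalar identity over the complex numbers. -/
theorem cscal (S T : Tr ι) : ∑ i, (1 / 2 : ℂ) * (ind ℂ S.1 i * ind ℂ T.1 i) - 1 / 2 +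
    (if (S.1 ∩ T.1).card % 2 = 0 then (if (S.1 ∩ T.1).card = 2 then -(1 / 2) else 1 / 2) else 0) =
      if S = T then 1 else 0 := by
  rw [← Finset.mul_sum, sum_ind_mul]
  have h1 := inter_le S T
  have h2 := inter_eq S T
  simp only [← h2]
  generalize (S.1 ∩ T.1).card = c at h1
  interval_cases c <;> norm_num

end Vale.Agent.P338Z.Des
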