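import Vale.Agent.P338Z.Net.GDefs
import Vale.Agent.P338Z.Net.CDes

/-!
P338 power saving: the complex network, from the generic network.
-/

namespace Vale.Agent.P338Z.Net.Cn

open Vale.Agent.P338Z.Des Matrix

variable {ι : Type} [Fintype ι] {m : ℕ} (ε : Fin m ≃ ι × ι × ι)

/-- Labels. -/
abbrev CL (ι : Type) : Type := ι → ZMod 2

/-- The Kronecker product of three words. -/
def kw (l : CL ι × CL ι × CL ι) : List Bool :=
  List.ofFn fun x => decide (l.1 (ε x).1 * l.2.1 (ε x).2.1 * l.2.2 (ε x).2.2 = 1)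

/-- The trilinear form of a vector. -/
def tf (ξ : Fin m → ZMod 2) (a b c : CL ι) : ZMod 2 :=
  ∑ i, ∑ j, ∑ k, a i * b j * c k * ξ (ε.symm (i, j, k))

theorem dotL_kw (l : CL ι × CL ι × CL ι) (ξ : Fin m → ZMod 2) :
    dotL m (kw ε l) ξ = tf ε ξ l.1 l.2.1 l.2.2 := by
  have h : ∀ z w : ZMod 2, (if decide (z = 1) = true then w else 0) = z * w := by decide
  rw [dotL, tf, ← ε.symm.sum_comp]
  simp only [Fintype.sum_prod_type]
  refine Finset.sum_congr rfl fun i _ => Finset.sum_congr rfl fun j _ =>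
    Finset.sum_congr rfl fun k _ => ?_
  rw [← h]
  simp [kw]

theorem tf_dot (ξ : Fin m → ZMod 2) (b c : CL ι) : (∃ η, ∀ a, tf ε ξ a b c = a ⬝ᵥ η) ∧
    (∃ η, ∀ a, tf ε ξ b a c = a ⬝ᵥ η) ∧ ∃ η, ∀ a, tf ε ξ b c a = a ⬝ᵥ η := by
  refine ⟨⟨fun i => ∑ j, ∑ k, b j * c k * ξ (ε.symm (i, j, k)), fun a => ?_⟩,
    ⟨fun j => ∑ i, ∑ k, b i * c k * ξ (ε.symm (i, j, k)), fun a => ?_⟩,
    ⟨fun k => ∑ i, ∑ j, b i * c j * ξ (ε.symm (i, j, k)), fun a => ?_⟩⟩
  · simp only [tf, dotProduct, Finset.mul_sum, mul_assoc]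
  · rw [tf, Finset.sum_comm]
    simp only [dotProduct, Finset.mul_sum, mul_assoc, mul_left_comm]
  · simp only [tf, dotProduct, Finset.mul_sum]
    rw [Finset.sum_comm (f := fun k i => ∑ j, a k * _)]
    refine Finset.sum_congr rfl fun i _ => ?_
    rw [Finset.sum_comm]
    exact Finset.sum_congr rfl fun k _ => Finset.sum_congr rfl fun j _ => by ring

/-- The frames. -/
def rho (a b c : CL ι) (ξ : Fin m → ZMod 2) : ZMod 4 := wt a * wt b * wt c * lf (tf ε ξ a b c)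

/-- The product of the weights. -/
def sg (l : CL ι × CL ι × CL ι) : ZMod 4 := wt l.1 * wt l.2.1 * wt l.2.2

theorem rho_eq (l : CL ι × CL ι × CL ι) : rho ε l.1 l.2.1 l.2.2 = sg l • qa m (kw ε l) := by
  ext ξ
  rw [rho, ← dotL_kw]
  rfl

theorem sg_odd {l : CL ι × CL ι × CL ι}
    (h : l.1 ⬝ᵥ l.1 = 1 ∧ l.2.1 ⬝ᵥ l.2.1 = 1 ∧ l.2.2 ⬝ᵥ l.2.2 = 1) : sg l = 1 ∨ sg l = -1 := by
  rcases wt_odd h.1 with h1 | h1 <;> rcases wt_odd h.2.1 with h2 | h2 <;>
    rcases wt_odd h.2.2 with h3 | h3 <;> simp [sg, h1, h2, h3]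

theorem exists_one {a : CL ι} (h : a ⬝ᵥ a = 1) : ∃ i, a i = 1 := by
  by_contra h0
  have h1 : ∀ z : ZMod 2, ¬z = 1 → z = 0 := by decide
  have h2 : a = 0 := funext fun i => h1 _ fun e => h0 ⟨i, e⟩
  rw [h2, dotProduct_zero] at h
  exact zero_ne_one h

theorem kw_lab {l : CL ι × CL ι × CL ι}
    (h : l.1 ⬝ᵥ l.1 = 1 ∧ l.2.1 ⬝ᵥ l.2.1 = 1 ∧ l.2.2 ⬝ᵥ l.2.2 = 1) :
    (kw ε l).length = m ∧ true ∈ kw ε l := by
  obtain ⟨i, hi⟩ := exists_one h.1
  obtain ⟨j, hj⟩ := exists_one h.2.1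
  obtain ⟨k, hk⟩ := exists_one h.2.2
  exact ⟨List.length_ofFn, List.mem_ofFn.2 ⟨ε.symm (i, j, k), by simp [hi, hj, hk]⟩⟩

/-- The translation of instructions. -/
def cc : NI ℕ (Bool × Bool) (CL ι × CL ι × CL ι) → CI
  | .gate i j s => (0, i, j, s.1, s.2, [])
  | .call i n l => (1, i, 0, xor n (decide (sg l = -1)), false, kw ε l)
  | .dbl i l => (2, i, 0, false, false, kw ε l)

theorem cc_lab {W : ℕ → Prop} {q : NI ℕ (Bool × Bool) (CL ι × CL ι × CL ι)}
    (hq : q.Wf W fun l => l.1 ⬝ᵥ l.1 = 1 ∧ l.2.1 ⬝ᵥ l.2.1 = 1 ∧ l.2.2 ⬝ᵥ l.2.2 = 1)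
    (h0 : (cc ε q).1 ≠ 0) : (cc ε q).2.2.2.2.2.length = m ∧ true ∈ (cc ε q).2.2.2.2.2 := by
  cases q with
  | gate i j s => exact absurd rfl h0
  | call i n l => exact kw_lab ε hq.2
  | dbl i l => exact kw_lab ε hq.2

theorem crun_cc {M : Type} [AddCommGroup M] [Module ℂ M]
    (Φ : ((Fin m → ZMod 2) → ZMod 4) → M →ₗ[ℂ] M) (y : ℕ → M) {W : ℕ → Prop}
    {q : NI ℕ (Bool × Bool) (CL ι × CL ι × CL ι)}
    (hq : q.Wf W fun l => l.1 ⬝ᵥ l.1 = 1 ∧ l.2.1 ⬝ᵥ l.2.1 = 1 ∧ l.2.2 ⬝ᵥ l.2.2 = 1) :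
    crun m Φ y (cc ε q) =
      NI.run (fun s => csc s.1 s.2) (fun l => rho ε l.1 l.2.1 l.2.2) Φ y q := by
  have h1 : ¬(1 : ZMod 4) = -1 := by decide
  cases q with
  | gate i j s => simp [crun, cc, NI.run]
  | call i n l =>
    rcases sg_odd hq.2 with h | h <;> cases n <;> simp [crun, cc, NI.run, rho_eq, h, h1]
  | dbl i l =>
    have h2 : -qa m (kw ε l) + -qa m (kw ε l) = qa m (kw ε l) + qa m (kw ε l) := by
      ext ξ
      have h3 : ∀ z : ZMod 4, -z + -z = z + z := by decide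
      exact h3 _
    rcases sg_odd hq.2 with h | h <;> simp [crun, cc, NI.run, rho_eq, h, h2]

omit [Fintype ι] in
theorem sum_app {α β γ : Type} [AddCommMonoid γ] (l : List α) (f : α → β → γ) (x : β) :
    (l.map f).sum x = (l.map fun a => f a x).sum := by
  induction l with
  | nil => rfl
  | cons a l ih => simp [← ih]

theorem dec_of {e l : List (CL ι)} (he : CDec e) (hl : CDec l) : Dec (rho ε) e l := by
  intro b c
  have h : ∀ η, (l.map fun a => wt b * wt c * (wt a * lf (a ⬝ᵥ η))).sum =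
      (e.map fun a => wt b * wt c * (wt a * lf (a ⬝ᵥ η))).sum := fun η => by
    rw [List.sum_map_mul_left, List.sum_map_mul_left, he η, hl η]
  refine ⟨funext fun ξ => ?_, funext fun ξ => ?_, funext fun ξ => ?_⟩
  · obtain ⟨η, hη⟩ := (tf_dot ε ξ b c).1
    simpa only [sum_app, rho, hη, mul_assoc, mul_left_comm] using h η
  · obtain ⟨η, hη⟩ := (tf_dot ε ξ b c).2.1
    simpa only [sum_app, rho, hη, mul_assoc, mul_left_comm] using h η
  · obtain ⟨η, hη⟩ := (tf_dot ε ξ b c).2.2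
    simpa only [sum_app, rho, hη, mul_assoc, mul_left_comm] using h η

variable [DecidableEq ι]

theorem cdec_e : CDec ((Finset.univ : Finset ι).toList.map ce) := fun η => by
  rw [List.map_map, Finset.sum_map_toList]
  exact orth_ce.wt η

theorem full_eq : full (rho ε) ((Finset.univ : Finset ι).toList.map ce) = qfull m := by
  ext ξ
  have h : ∀ i j k, tf ε ξ (ce i) (ce j) (ce k) = ξ (ε.symm (i, j, k)) := fun i j k => by
    simp [tf, ce, Pi.single_apply]
  simp only [full, List.map_map, Finset.sum_map_toList, Function.comp_def, Finset.sum_apply, rho,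
    wt_ce, one_mul, h]
  rw [qfull, ← ε.symm.sum_comp]
  simp only [Fintype.sum_prod_type]
  rfl

theorem exists_des (g : ℕ) (hg : Fintype.card ι = g + 2) (h8 : 8 ≤ Fintype.card ι) :
    ∃ D : Des (Tr ι) (Option ι) (CL ι) (Bool × Bool), D.g = g ∧ (D.good = fun a => a ⬝ᵥ a = 1) ∧
      D.Ok ∧ (D.Sc fun s => csc s.1 s.2) ∧ D.e = Finset.univ.toList.map ce ∧ D.Fr (rho ε) := by
  choose c1 h1 h2 h3 using exists_cc1 h8
  have h : ∀ S T : Tr ι, ∃ l : List (CL ι), (S.1 ∩ T.1).card % 2 = 0 →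
      l.length + 2 = Fintype.card ι ∧ (∀ a ∈ l, a ⬝ᵥ a = 1) ∧
        CDec (ind (ZMod 2) S.1 :: ind (ZMod 2) T.1 :: l) := fun S T => by
    by_cases h : (S.1 ∩ T.1).card % 2 = 0
    · obtain ⟨l, hl⟩ := exists_cc2 h8 S T h
      exact ⟨l, fun _ => hl⟩
    · exact ⟨[], fun h' => absurd h' h⟩
  choose c2 h4 using h
  have h5 : ∀ (S T : Tr ι) (s : Bool × Bool),
      (if (S.1 ∩ T.1).card % 2 = 0 then some s else none).isSome = true →
      (S.1 ∩ T.1).card % 2 = 0 := fun S T s h => by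
    by_contra h'
    simp [h'] at h
  refine ⟨⟨g, fun T => ind (ZMod 2) T.1, Finset.univ.toList.map ce, c1, c2,
    fun S i => i.elim (some (true, true)) fun i => if i ∈ S.1 then some (false, true) else none,
    fun i T => i.elim (some (false, false)) fun i => if i ∈ T.1 then some (false, false) else none,
    fun S T => if (S.1 ∩ T.1).card % 2 = 0 then some (decide ((S.1 ∩ T.1).card = 2), true)
      else none, (false, false), fun s => (!s.1, s.2), fun a => a ⬝ᵥ a = 1⟩, rfl, rfl,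
    ⟨by simp [hg], fun T => ?_, fun S T h => ?_, ind_odd, fun a ha => ?_, h2,
      fun S T h => (h4 S T (h5 S T _ h)).2.1⟩, ⟨by simp [csc], fun s => ?_, fun S T => ?_⟩, rfl,
    ⟨fun T => dec_of ε cdec_e (h3 T), fun S T h => dec_of ε cdec_e (h4 S T (h5 S T _ h)).2.2⟩⟩
  · have := h1 T
    simp only
    omega
  · have := (h4 S T (h5 S T _ h)).1
    simp only
    omega
  · obtain ⟨k, -, rfl⟩ := List.mem_map.1 ha
    exact (orth_ce k k).trans (if_pos rfl)
  · obtain ⟨n, h⟩ := s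
    cases n <;> cases h <;> simp [csc]
  · rw [← cscal S T, Fintype.sum_option]
    simp only [Option.elim, apply_ite (osc _), ind]
    have h6 : ∀ (p : Prop) [Decidable p], csc (decide p) true = if p then -(1 / 2) else 1 / 2 :=
      fun p _ => by by_cases h : p <;> simp [csc, h]
    simp only [osc, h6]
    simp only [csc, mul_ite, ite_mul]
    simp
    ring

end Vale.Agent.P338Z.Net.Cn

namespace Vale.Agent.P338Z.Net

open Vale.Agent.P338Z.Des Cn

theorem cnet_of (hG : GEN) : CNET := by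
  obtain ⟨ε⟩ : Nonempty (Fin (48 ^ 3) ≃ Fin 48 × Fin 48 × Fin 48) :=
    ⟨Fintype.equivOfCardEq (by simp only [Fintype.card_fin, Fintype.card_prod]; norm_num)⟩
  obtain ⟨D, hg, hgood, hok, hsc, he, hfr⟩ := exists_des ε 46 (Fintype.card_fin 48) (by simp)
  obtain ⟨prog, hwf, hc, hc', hsem⟩ := hG _ _ _ _ D 60 17296 49 card_tr (by simp) hok
    (by norm_num)
  rw [hg] at hc
  rw [hgood] at hwf
  refine ⟨prog.map (cc ε), ?_, fun c hc => ?_, fun c hc h0 => ?_, ?_,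
    fun M _ _ Φ h0 hadd x w hw => ?_⟩
  · rw [List.length_map, List.length_eq_countP_add_countP NI.isG]
    simp only [Bool.not_eq_true, Bool.decide_eq_false]
    norm_num at hc hc' ⊢
    omega
  · obtain ⟨q, hq, rfl⟩ := List.mem_map.1 hc
    have h := hwf q hq
    cases q with
    | gate i j s => exact ⟨h.1, fun _ => h.2⟩
    | call i n l => exact ⟨h.1, fun h' => absurd h' one_ne_zero⟩
    | dbl i l => exact ⟨h.1, fun h' => absurd h' two_ne_zero⟩
  · obtain ⟨q, hq, rfl⟩ := List.mem_map.1 hc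
    exact cc_lab ε (hwf q hq) h0
  · have h : prog.countP ((fun c : CI => decide (c.1 = 1)) ∘ cc ε) ≤ prog.countP fun q => !q.isG :=
      List.countP_mono_left fun q _ => by cases q <;> simp [cc, NI.isG]
    rw [← List.countP_eq_length_filter, List.countP_map]
    norm_num at hc ⊢
    omega
  · have h := hsem ℂ _ hsc _ _ hfr M Φ h0 hadd x w hw
    rw [he, full_eq] at h
    rw [List.foldl_map, ← h]
    exact congrFun (List.foldl_ext _ _ _ fun y q hq => crun_cc ε Φ y (hwf q hq)) w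

end Vale.Agent.P338Z.Net
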