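import Mathlib

/-!
P338 power saving: the design of the routing network (triples, rational projections).
-/

namespace Vale.Agent.P338Z.Des

variable {ι : Type} [Fintype ι] [DecidableEq ι]

/-- Triples. -/
abbrev Tr (ι : Type) : Type := {S : Finset ι // S.card = 3}

omit [Fintype ι] in
theorem inter_le (S T : Tr ι) : (S.1 ∩ T.1).card ≤ 3 :=
  (Finset.card_le_card Finset.inter_subset_left).trans S.2.le

omit [Fintype ι] in
theorem inter_eq (S T : Tr ι) : (S.1 ∩ T.1).card = 3 ↔ S = T := by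
  refine ⟨fun h => Subtype.ext ?_, fun h => by rw [h, Finset.inter_self, T.2]⟩
  have h1 : S.1 ∩ T.1 = S.1 :=
    Finset.eq_of_subset_of_card_le Finset.inter_subset_left (by rw [h, S.2])
  have h2 : S.1 ∩ T.1 = T.1 :=
    Finset.eq_of_subset_of_card_le Finset.inter_subset_right (by rw [h, T.2])
  rw [← h1, h2]

theorem card_tr : Fintype.card (Tr (Fin 48)) = 17296 := by
  rw [Fintype.card_finset_len, Fintype.card_fin]
  decide +kernel

/-- The indicator function. -/
def ind (R : Type) [Zero R] [One R] (S : Finset ι) (i : ι) : R := if i ∈ S then 1 else 0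

theorem sum_ind (R : Type) [Semiring R] (S : Finset ι) : ∑ i, ind R S i = S.card := by
  simp [ind]

theorem sum_ind_mul (R : Type) [Semiring R] (S T : Finset ι) :
    ∑ i, ind R S i * ind R T i = (S ∩ T).card := by
  rw [← sum_ind]
  refine Finset.sum_congr rfl fun i _ => ?_
  by_cases h : i ∈ S <;> by_cases h' : i ∈ T <;> simp [ind, h, h']

/-- Labels: the pair `(a, b)` stands for the matrix `a bᵀ / 6`. -/
abbrev QL (ι : Type) : Type := (ι → ℤ) × (ι → ℤ)

/-- The projection of a triple. -/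
def qt (S : Finset ι) : QL ι := (ind ℤ S, fun j => 3 * ind ℤ S j - 1)

/-- The coordinate projections. -/
def qe (k : ι) : QL ι := (fun i => if i = k then 6 else 0, fun j => if j = k then 1 else 0)

/-- Both vectors are not zero. -/
def QP (a : QL ι) : Prop := (∃ i, a.1 i ≠ 0) ∧ ∃ j, a.2 j ≠ 0

/-- The matrices add up to the identity. -/
def QDec (l : List (QL ι)) : Prop :=
  ∀ i j, (l.map fun a => a.1 i * a.2 j).sum = if i = j then 6 else 0

omit [Fintype ι] in
theorem qp_t (S : Tr ι) : QP (qt S.1) := by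
  obtain ⟨p, hp⟩ : S.1.Nonempty := Finset.card_pos.1 (by rw [S.2]; norm_num)
  exact ⟨⟨p, by simp [qt, ind, hp]⟩, ⟨p, by simp [qt, ind, hp]⟩⟩

omit [Fintype ι] in
theorem qp_e (k : ι) : QP (qe k) := ⟨⟨k, by simp [qe]⟩, ⟨k, by simp [qe]⟩⟩

theorem sum_qe (i j : ι) : ∑ k, (qe k).1 i * (qe k).2 j = if i = j then 6 else 0 := by
  simp [qe, eq_comm]

theorem sum_row (S T : Finset ι) (hT : T.card = 3) :
    ∑ k, (3 * ind ℤ S k - 1) * ind ℤ T k = 3 * ((S ∩ T).card : ℤ) - 3 := by
  simp only [sub_mul, one_mul, mul_assoc, Finset.sum_sub_distrib, ← Finset.mul_sum, sum_ind_mul,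
    sum_ind, hT]
  norm_num

theorem pivot (N : ι → ℤ) (S T : Finset ι) (p q j : ι) (hS : ∑ k, N k * ind ℤ S k = 0)
    (hT : ∑ k, N k * ind ℤ T k = 0) :
    ∑ k, N k * ((if j = k then 1 else 0) - ind ℤ S k * (if j = p then 1 else 0) -
      ind ℤ T k * (if j = q then 1 else 0)) = N j := by
  simp only [mul_sub, ← mul_assoc, Finset.sum_sub_distrib, ← Finset.sum_mul, hS, hT]
  simp

theorem exists_qc1 (T : Tr ι) : ∃ l : List (QL ι), l.length + 1 = Fintype.card ι ∧
    (∀ a ∈ l, QP a) ∧ QDec (qt T.1 :: l) := by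
  obtain ⟨p, hp⟩ : T.1.Nonempty := Finset.card_pos.1 (by rw [T.2]; norm_num)
  let N : ι → ι → ℤ := fun i k => (if i = k then 6 else 0) - ind ℤ T.1 i * (3 * ind ℤ T.1 k - 1)
  have hN : ∀ i, ∑ k, N i k * ind ℤ T.1 k = 0 := fun i => by
    simp only [N, sub_mul (ite _ _ _), mul_assoc, Finset.sum_sub_distrib, ← Finset.mul_sum,
      sum_row _ _ T.2, Finset.inter_self, T.2]
    simp
    ring
  refine ⟨(Finset.univ.erase p).toList.map fun k => (fun i => N i k, fun j =>
    (if j = k then 1 else 0) - ind ℤ T.1 k * (if j = p then 1 else 0) -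
      ind ℤ ∅ k * (if j = p then 1 else 0)), ?_, ?_, fun i j => ?_⟩
  · rw [List.length_map, Finset.length_toList, Finset.card_erase_add_one (Finset.mem_univ p),
      Finset.card_univ]
  · intro a ha
    obtain ⟨k, hk, rfl⟩ := List.mem_map.1 ha
    have hk' : k ≠ p := (Finset.mem_erase.1 (Finset.mem_toList.1 hk)).1
    refine ⟨⟨k, ?_⟩, ⟨k, by simp [hk']⟩⟩
    by_cases h : k ∈ T.1 <;> simp [N, ind, h]
  · rw [List.map_cons, List.sum_cons, List.map_map, Finset.sum_map_toList]
    simp only [Function.comp_def]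
    rw [Finset.sum_erase _ (by simp [ind, hp]), pivot (N i) _ _ p p j (hN i) (by simp [ind])]
    simp [N, qt]

theorem exists_qc2 (S T : Tr ι) (h : (S.1 ∩ T.1).card = 1) : ∃ l : List (QL ι),
    l.length + 2 = Fintype.card ι ∧ (∀ a ∈ l, QP a) ∧ QDec (qt S.1 :: qt T.1 :: l) := by
  have h' : (T.1 ∩ S.1).card = 1 := by rw [Finset.inter_comm, h]
  obtain ⟨p, hp⟩ : (S.1 \ T.1).Nonempty := Finset.card_pos.1 (by
    have := Finset.card_sdiff_add_card_inter S.1 T.1
    have := S.2
    omega)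
  obtain ⟨q, hq⟩ : (T.1 \ S.1).Nonempty := Finset.card_pos.1 (by
    have := Finset.card_sdiff_add_card_inter T.1 S.1
    have := T.2
    omega)
  rw [Finset.mem_sdiff] at hp hq
  have hpq : q ≠ p := fun e => hp.2 (e ▸ hq.1)
  let N : ι → ι → ℤ := fun i k => (if i = k then 6 else 0) -
    ind ℤ S.1 i * (3 * ind ℤ S.1 k - 1) - ind ℤ T.1 i * (3 * ind ℤ T.1 k - 1)
  have hN : ∀ i, ∑ k, N i k * ind ℤ S.1 k = 0 := fun i => by
    simp only [N, sub_mul (ite _ _ _), sub_mul (ite _ _ _ - _), mul_assoc, Finset.sum_sub_distrib,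
      ← Finset.mul_sum, sum_row _ _ S.2, Finset.inter_self, S.2, h']
    simp
    ring
  have hN' : ∀ i, ∑ k, N i k * ind ℤ T.1 k = 0 := fun i => by
    simp only [N, sub_mul (ite _ _ _), sub_mul (ite _ _ _ - _), mul_assoc, Finset.sum_sub_distrib,
      ← Finset.mul_sum, sum_row _ _ T.2, Finset.inter_self, T.2, h]
    simp
    ring
  refine ⟨((Finset.univ.erase p).erase q).toList.map fun k => (fun i => N i k, fun j =>
    (if j = k then 1 else 0) - ind ℤ S.1 k * (if j = p then 1 else 0) -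
      ind ℤ T.1 k * (if j = q then 1 else 0)), ?_, ?_, fun i j => ?_⟩
  · rw [List.length_map, Finset.length_toList, ← Finset.card_univ,
      ← Finset.card_erase_add_one (Finset.mem_univ p),
      ← Finset.card_erase_add_one (Finset.mem_erase.2 ⟨hpq, Finset.mem_univ q⟩)]
  · intro a ha
    obtain ⟨k, hk, rfl⟩ := List.mem_map.1 ha
    have hk' := Finset.mem_erase.1 (Finset.mem_toList.1 hk)
    have hk'' : k ≠ p := (Finset.mem_erase.1 hk'.2).1
    refine ⟨⟨k, ?_⟩, ⟨k, by simp [hk'.1, hk'']⟩⟩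
    by_cases h1 : k ∈ S.1 <;> by_cases h2 : k ∈ T.1 <;> simp [N, ind, h1, h2]
  · rw [List.map_cons, List.sum_cons, List.map_cons, List.sum_cons, List.map_map,
      Finset.sum_map_toList]
    simp only [Function.comp_def]
    rw [Finset.sum_erase _ (by simp [ind, hq.1, hq.2]),
      Finset.sum_erase _ (by simp [ind, hp.1, hp.2]), pivot (N i) _ _ p q j (hN i) (hN' i)]
    simp [N, qt]

/-- The scalar identity in characteristic two. -/
theorem qscal (S T : Tr ι) : ∑ i, ind (ZMod 2) S.1 i * ind (ZMod 2) T.1 i +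
    (if (S.1 ∩ T.1).card = 1 then 1 else 0) = if S = T then 1 else 0 := by
  rw [sum_ind_mul]
  have h1 := inter_le S T
  have h2 := inter_eq S T
  simp only [← h2]
  generalize (S.1 ∩ T.1).card = c at h1
  interval_cases c <;> decide

end Vale.Agent.P338Z.Des
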