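import Vale.Agent.P338Z.Net.GDefs
import Vale.Agent.P338Z.Net.QDes

/-!
P338 power saving: the routing network, from the generic network.
-/

namespace Vale.Agent.P338Z.Net.Qn

open Vale.Agent.P338Z.Des

variable {ι : Type} {m : ℕ} (ε : Fin m ≃ ι × ι × ι)

/-- The Kronecker product of three vectors. -/
def kr (a b c : ι → ℤ) (x : Fin m) : ℤ := a (ε x).1 * b (ε x).2.1 * c (ε x).2.2

theorem kr_ne {a b c : ι → ℤ} (ha : ∃ i, a i ≠ 0) (hb : ∃ i, b i ≠ 0) (hc : ∃ i, c i ≠ 0) :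
    ∃ x, kr ε a b c x ≠ 0 := by
  obtain ⟨i, hi⟩ := ha
  obtain ⟨j, hj⟩ := hb
  obtain ⟨k, hk⟩ := hc
  exact ⟨ε.symm (i, j, k), by simp [kr, hi, hj, hk]⟩

/-- An instruction for the change of frame by `s α βᵀ / 216`. -/
def cl (i : ℕ) (s : ℤ) (l : QL ι × QL ι × QL ι) : QI :=
  (false, i, 0, List.ofFn fun x => s * kr ε l.1.1 l.2.1.1 l.2.2.1 x,
    List.ofFn (kr ε l.1.2 l.2.1.2 l.2.2.2))

/-- The translation of instructions. -/
def cq : NI ℕ Unit (QL ι × QL ι × QL ι) → QI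
  | .gate i j _ => (true, i, j, [], [])
  | .call i n l => cl ε i (if n then -1 else 1) l
  | .dbl i l => cl ε i 2 l

theorem cq_fst (q : NI ℕ Unit (QL ι × QL ι × QL ι)) : (cq ε q).1 = q.isG := by
  cases q <;> rfl

theorem cl_lab (i : ℕ) {s : ℤ} (hs : s ≠ 0) {l : QL ι × QL ι × QL ι}
    (h : QP l.1 ∧ QP l.2.1 ∧ QP l.2.2) : (cl ε i s l).2.2.2.1.length = m ∧
      (cl ε i s l).2.2.2.2.length = m ∧ (∃ x ∈ (cl ε i s l).2.2.2.1, x ≠ 0) ∧
      ∃ x ∈ (cl ε i s l).2.2.2.2, x ≠ 0 := by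
  obtain ⟨x, hx⟩ := kr_ne ε h.1.1 h.2.1.1 h.2.2.1
  obtain ⟨y, hy⟩ := kr_ne ε h.1.2 h.2.1.2 h.2.2.2
  exact ⟨List.length_ofFn, List.length_ofFn, ⟨_, List.mem_ofFn.2 ⟨x, rfl⟩, mul_ne_zero hs hx⟩,
    ⟨_, List.mem_ofFn.2 ⟨y, rfl⟩, hy⟩⟩

/-- The matrix of a label. -/
def om (a : QL ι) (i j : ι) : ℤ := a.1 i * a.2 j

/-- The Kronecker product of three matrices, divided by `216`. -/
def tri (Q : ℕ) (A B C : ι → ι → ℤ) : Matrix (Fin m) (Fin m) (ZMod Q) := fun x y =>
  (216 : ZMod Q)⁻¹ * ((A (ε x).1 (ε y).1 * B (ε x).2.1 (ε y).2.1 * C (ε x).2.2 (ε y).2.2 : ℤ) : ZMod Q)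

/-- The frames. -/
def rho (Q : ℕ) (a b c : QL ι) : Matrix (Fin m) (Fin m) (ZMod Q) := tri ε Q (om a) (om b) (om c)

theorem qmat_cl (Q i : ℕ) (s : ℤ) (l : QL ι × QL ι × QL ι) :
    qmat m Q (cl ε i s l).2.2.2.1 (cl ε i s l).2.2.2.2 = s • rho ε Q l.1 l.2.1 l.2.2 := by
  ext x y
  simp [qmat, cl, rho, tri, om, kr]
  ring

theorem qrun_cq (Q : ℕ) {M : Type} [AddCommGroup M] [Module (ZMod 2) M]
    (Φ : Matrix (Fin m) (Fin m) (ZMod Q) → M →+ M) (y : ℕ → M) (q : NI ℕ Unit (QL ι × QL ι × QL ι)) :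
    qrun m Q Φ y (cq ε q) = NI.run (fun _ => (1 : ZMod 2)) (fun l => rho ε Q l.1 l.2.1 l.2.2)
      (fun g => (Φ g).toZModLinearMap 2) y q := by
  cases q with
  | gate i j s => simp [qrun, cq, NI.run]
  | call i n l =>
    have h5 := qmat_cl ε Q i (if n then -1 else 1) l
    simp only [qrun, cq, NI.run, h5]
    cases n <;> simp [cl]
  | dbl i l =>
    have h5 := qmat_cl ε Q i 2 l
    simp only [qrun, cq, NI.run, h5, two_smul]
    simp [cl]

theorem sum_om (l : List (QL ι)) (i j : ι) :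
    (l.map om).sum i j = (l.map fun a => a.1 i * a.2 j).sum := by
  induction l with
  | nil => rfl
  | cons a l ih => simp [om, ← ih]

variable [DecidableEq ι]

/-- Six times the identity. -/
def six (i j : ι) : ℤ := if i = j then 6 else 0

theorem sum_hom {G : Type} [AddCommGroup G] (F : (ι → ι → ℤ) → G)
    (hF : ∀ A B, F (A + B) = F A + F B) {l : List (QL ι)} (h : QDec l) :
    (l.map fun a => F (om a)).sum = F six := by
  have h1 : (l.map om).sum = six := by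
    ext i j
    rw [sum_om, h i j, six]
  rw [← h1]
  have h2 := map_list_sum (AddMonoidHom.mk' F hF) (l.map om)
  rw [List.map_map] at h2
  exact h2.symm

omit [DecidableEq ι] in
theorem tri_add (Q : ℕ) (A A' B C : ι → ι → ℤ) :
    tri ε Q (A + A') B C = tri ε Q A B C + tri ε Q A' B C ∧
    tri ε Q B (A + A') C = tri ε Q B A C + tri ε Q B A' C ∧
    tri ε Q B C (A + A') = tri ε Q B C A + tri ε Q B C A' := by
  refine ⟨?_, ?_, ?_⟩ <;> ext x y <;> simp [tri] <;> ring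

theorem sum_rho (Q : ℕ) {l : List (QL ι)} (h : QDec l) (B C : ι → ι → ℤ) :
    (l.map fun a => tri ε Q (om a) B C).sum = tri ε Q six B C ∧
    (l.map fun a => tri ε Q B (om a) C).sum = tri ε Q B six C ∧
    (l.map fun a => tri ε Q B C (om a)).sum = tri ε Q B C six :=
  ⟨sum_hom (fun A => tri ε Q A B C) (fun A A' => (tri_add ε Q A A' B C).1) h,
    sum_hom (fun A => tri ε Q B A C) (fun A A' => (tri_add ε Q A A' B C).2.1) h,
    sum_hom (fun A => tri ε Q B C A) (fun A A' => (tri_add ε Q A A' B C).2.2) h⟩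

theorem dec_of (Q : ℕ) {e l : List (QL ι)} (he : QDec e) (hl : QDec l) : Dec (rho ε Q) e l :=
  fun b c => ⟨(sum_rho ε Q hl (om b) (om c)).1.trans (sum_rho ε Q he (om b) (om c)).1.symm,
    (sum_rho ε Q hl (om b) (om c)).2.1.trans (sum_rho ε Q he (om b) (om c)).2.1.symm,
    (sum_rho ε Q hl (om b) (om c)).2.2.trans (sum_rho ε Q he (om b) (om c)).2.2.symm⟩

theorem full_eq {Q : ℕ} (hQ : Nat.Coprime 216 Q) {e : List (QL ι)} (he : QDec e) :
    full (rho ε Q) e = 1 := by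
  have h1 : full (rho ε Q) e = tri ε Q six six six := by
    simp only [full, rho, fun B C => (sum_rho ε Q he B C).2.2, fun B C => (sum_rho ε Q he B C).2.1,
      fun B C => (sum_rho ε Q he B C).1]
  have hu : (216 : ZMod Q)⁻¹ * 216 = 1 := by
    have h := (ZMod.isUnit_iff_coprime 216 Q).2 hQ
    exact ZMod.inv_mul_of_unit _ (by exact_mod_cast h)
  rw [h1]
  ext x y
  by_cases h : x = y
  · subst h
    simp only [tri, six, if_true, Matrix.one_apply_eq]
    exact_mod_cast hu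
  · have h' : ¬((ε x).1 = (ε y).1 ∧ (ε x).2.1 = (ε y).2.1 ∧ (ε x).2.2 = (ε y).2.2) := fun h' =>
      h (ε.injective (Prod.ext h'.1 (Prod.ext h'.2.1 h'.2.2)))
    rw [Matrix.one_apply_ne h, tri]
    simp only [six]
    split_ifs with h1 h2 h3
    · exact absurd ⟨h1, h2, h3⟩ h'
    all_goals simp

theorem exists_mult (L : List ℤ) : ∃ Δ : ℕ, 0 < Δ ∧ 216 ∣ Δ ∧ ∀ x ∈ L, x ≠ 0 → x.natAbs ∣ Δ := by
  induction L with
  | nil => exact ⟨216, by norm_num, dvd_rfl, by simp⟩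
  | cons a L ih =>
    obtain ⟨Δ, h1, h2, h3⟩ := ih
    by_cases ha : a = 0
    · refine ⟨Δ, h1, h2, fun x hx h0 => ?_⟩
      rcases List.mem_cons.1 hx with rfl | hx
      · exact absurd ha h0
      · exact h3 x hx h0
    · refine ⟨Δ * a.natAbs, Nat.mul_pos h1 (Int.natAbs_pos.2 ha), h2.mul_right _, fun x hx h0 => ?_⟩
      rcases List.mem_cons.1 hx with rfl | hx
      · exact dvd_mul_left _ _
      · exact (h3 x hx h0).mul_right _

variable [Fintype ι]

theorem qdec_e : QDec ((Finset.univ : Finset ι).toList.map qe) := fun i j => by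
  rw [List.map_map, Finset.sum_map_toList]
  exact sum_qe i j

theorem exists_des (g : ℕ) (hg : Fintype.card ι = g + 2) :
    ∃ D : Des (Tr ι) ι (QL ι) Unit, D.g = g ∧ D.good = QP ∧ D.Ok ∧
      (D.Sc fun _ => (1 : ZMod 2)) ∧ QDec D.e ∧ ∀ Q, D.Fr (rho ε Q) := by
  choose c1 h1 h2 h3 using exists_qc1 (ι := ι)
  have h : ∀ S T : Tr ι, ∃ l : List (QL ι), (S.1 ∩ T.1).card = 1 → l.length + 2 = Fintype.card ι ∧
      (∀ a ∈ l, QP a) ∧ QDec (qt S.1 :: qt T.1 :: l) := fun S T => by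
    by_cases h : (S.1 ∩ T.1).card = 1
    · obtain ⟨l, hl⟩ := exists_qc2 S T h
      exact ⟨l, fun _ => hl⟩
    · exact ⟨[], fun h' => absurd h' h⟩
  choose c2 h4 using h
  have h5 : ∀ S T : Tr ι, (if (S.1 ∩ T.1).card = 1 then some () else none).isSome = true →
      (S.1 ∩ T.1).card = 1 := fun S T h => by
    by_contra h'
    simp [h'] at h
  refine ⟨⟨g, fun T => qt T.1, Finset.univ.toList.map qe, c1, c2,
    fun S i => if i ∈ S.1 then some () else none, fun i T => if i ∈ T.1 then some () else none,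
    fun S T => if (S.1 ∩ T.1).card = 1 then some () else none, (), id, QP⟩, rfl, rfl,
    ⟨by simp [hg], fun T => ?_, fun S T h => ?_, qp_t, fun a ha => ?_, h2,
      fun S T h => (h4 S T (h5 S T h)).2.1⟩, ⟨rfl, fun _ => by decide, fun S T => ?_⟩, qdec_e,
    fun Q => ⟨fun T => dec_of ε Q qdec_e (h3 T), fun S T h =>
      dec_of ε Q qdec_e (h4 S T (h5 S T h)).2.2⟩⟩
  · have := h1 T
    simp only
    omega
  · have := (h4 S T (h5 S T h)).1
    simp only
    omega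
  · obtain ⟨k, -, rfl⟩ := List.mem_map.1 ha
    exact qp_e k
  · rw [← qscal S T]
    simp only [apply_ite (osc _), ind]
    rfl

end Vale.Agent.P338Z.Net.Qn

namespace Vale.Agent.P338Z.Net

open Vale.Agent.P338Z.Des Qn

theorem qnet_of (hG : GEN) : QNET := by
  obtain ⟨ε⟩ : Nonempty (Fin (48 ^ 3) ≃ Fin 48 × Fin 48 × Fin 48) :=
    ⟨Fintype.equivOfCardEq (by simp only [Fintype.card_fin, Fintype.card_prod]; norm_num)⟩
  obtain ⟨D, hg, hgood, hok, hsc, he, hfr⟩ := exists_des ε 46 (Fintype.card_fin 48)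
  obtain ⟨prog, hwf, hc, hc', hsem⟩ := hG _ _ _ _ D 60 17296 48 card_tr (Fintype.card_fin 48) hok
    (by norm_num)
  rw [hg] at hc
  rw [hgood] at hwf
  obtain ⟨Δ, h1, h2, h3⟩ := exists_mult ((prog.map (cq ε)).flatMap fun c => c.2.2.2.1 ++ c.2.2.2.2)
  refine ⟨Δ, prog.map (cq ε), h1, h2, ?_, fun c hc => ?_, fun c hc h0 => ?_, ?_,
    fun Q hQ M _ hM Φ h0 hadd x w hw => ?_⟩
  · rw [List.length_map, List.length_eq_countP_add_countP NI.isG]
    simp only [Bool.not_eq_true, Bool.decide_eq_false]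
    norm_num at hc hc' ⊢
    omega
  · obtain ⟨q, hq, rfl⟩ := List.mem_map.1 hc
    have h := hwf q hq
    cases q with
    | gate i j s => exact ⟨h.1, fun _ => h.2⟩
    | call i n l => exact ⟨h.1, fun h' => absurd h' Bool.false_ne_true⟩
    | dbl i l => exact ⟨h.1, fun h' => absurd h' Bool.false_ne_true⟩
  · have h4 := fun x hx => h3 x (List.mem_flatMap.2 ⟨c, hc, hx⟩)
    obtain ⟨q, hq, rfl⟩ := List.mem_map.1 hc
    have h := hwf q hq
    cases q with
    | gate i j s => exact absurd h0.symm Bool.false_ne_true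
    | call i n l =>
      have h5 := cl_lab ε i (s := if n then -1 else 1) (by cases n <;> simp) h.2
      exact ⟨h5.1, h5.2.1, h5.2.2.1, h5.2.2.2, h4⟩
    | dbl i l =>
      have h5 := cl_lab ε i (s := 2) (by norm_num) h.2
      exact ⟨h5.1, h5.2.1, h5.2.2.1, h5.2.2.2, h4⟩
  · rw [← List.countP_eq_length_filter, List.countP_map]
    simp only [Function.comp_def, cq_fst]
    norm_num at hc ⊢
    omega
  · let _ : Module (ZMod 2) M := AddCommGroup.zmodModule fun z => (two_nsmul z).trans (hM z)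
    have hco : Nat.Coprime 216 Q :=
      (Nat.coprime_of_mul_modEq_one 1 (by simpa using hQ.of_dvd h2)).symm
    have h := hsem (ZMod 2) _ hsc _ _ (hfr Q) M (fun g => (Φ g).toZModLinearMap 2) h0 hadd x w hw
    rw [full_eq ε hco he] at h
    rw [List.foldl_map]
    simp only [qrun_cq]
    exact h

end Vale.Agent.P338Z.Net
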