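import Vale.Agent.P338Z.Net.Gen
import Vale.Agent.P338Z.Net.QNet
import Vale.Agent.P338Z.Net.CNet

/-!
P338 power saving: both networks exist.
-/

namespace Vale.Agent.P338Z.Net

theorem nets : NETS := nets_of (qnet_of gen) (cnet_of gen)

end Vale.Agent.P338Z.Net
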