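import Vale.Agent.P338Z.Net.Defs

/-!
P338 power saving: the generic network (definitions and statement).
-/

namespace Vale.Agent.P338Z.Net

/-- Instructions: a gate adds a multiple of the wire `j` to the wire `i`, a call changes the frame
of the wire `i` by an atom (`n`: its negative), `dbl` by twice an atom. -/
inductive NI (ι σ Λ : Type)
  | gate (i j : ι) (s : σ)
  | call (i : ι) (n : Bool) (l : Λ)
  | dbl (i : ι) (l : Λ)

namespace NI

variable {ι σ Λ : Type}

/-- The effect of an instruction. -/
def run [DecidableEq ι] {R G M : Type} [CommRing R] [AddCommGroup G] [AddCommGroup M] [Module R M]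
    (sc : σ → R) (ρ : Λ → G) (Φ : G → M →ₗ[R] M) (x : ι → M) : NI ι σ Λ → ι → M
  | gate i j s => Function.update x i (x i + sc s • x j)
  | call i n l => Function.update x i (Φ (if n then -ρ l else ρ l) (x i))
  | dbl i l => Function.update x i (Φ (ρ l + ρ l) (x i))

/-- Gates. -/
def isG : NI ι σ Λ → Bool
  | gate _ _ _ => true
  | _ => false

/-- The wires satisfy `W`, the two wires of a gate are different, the atoms satisfy `A`. -/
def Wf (W : ι → Prop) (A : Λ → Prop) : NI ι σ Λ → Prop
  | gate i j _ => W i ∧ W j ∧ j ≠ i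
  | call i _ l => W i ∧ A l
  | dbl i l => W i ∧ A l

end NI

/-- A design: `I` data indices, `K` central wires, `L` labels, `σ` codes of scalars, `h = g + 2`. -/
structure Des (I K L σ : Type) where
  /-- `h - 2` -/
  g : ℕ
  /-- the label of an index -/
  t : I → L
  /-- the standard basis -/
  e : List L
  /-- completion of one label -/
  c1 : I → List L
  /-- completion of two labels -/
  c2 : I → I → List L
  /-- from the central wires -/
  J : I → K → Option σ
  /-- to the central wires -/
  G : K → I → Option σ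
  /-- from the side wires -/
  E : I → I → Option σ
  /-- code of `1` -/
  one : σ
  /-- code of the negative -/
  ng : σ → σ
  /-- property of all labels -/
  good : L → Prop

/-- The value of an optional scalar. -/
def osc {σ R : Type} [CommRing R] (sc : σ → R) : Option σ → R
  | none => 0
  | some s => sc s

/-- In every slot the list `l` has the same sum as the list `e`. -/
def Dec {L G : Type} [AddCommGroup G] (ρ : L → L → L → G) (e l : List L) : Prop :=
  ∀ b c, (l.map fun a => ρ a b c).sum = (e.map fun a => ρ a b c).sum ∧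
    (l.map fun a => ρ b a c).sum = (e.map fun a => ρ b a c).sum ∧
    (l.map fun a => ρ b c a).sum = (e.map fun a => ρ b c a).sum

/-- The full frame. -/
def full {L G : Type} [AddCommGroup G] (ρ : L → L → L → G) (e : List L) : G :=
  (e.map fun a => (e.map fun b => (e.map fun c => ρ a b c).sum).sum).sum

namespace Des

variable {I K L σ : Type} (D : Des I K L σ)

/-- Lengths and labels. -/
structure Ok : Prop where
  le : D.e.length = D.g + 2
  l1 : ∀ T, (D.c1 T).length = D.g + 1
  l2 : ∀ S T, (D.E S T).isSome → (D.c2 S T).length = D.g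
  gt : ∀ T, D.good (D.t T)
  ge : ∀ a ∈ D.e, D.good a
  g1 : ∀ T, ∀ a ∈ D.c1 T, D.good a
  g2 : ∀ S T, (D.E S T).isSome → ∀ a ∈ D.c2 S T, D.good a

/-- The scalar identity. -/
structure Sc [DecidableEq I] [Fintype K] {R : Type} [CommRing R] (sc : σ → R) : Prop where
  one : sc D.one = 1
  ng : ∀ s, sc (D.ng s) = -sc s
  id : ∀ S T, ∑ i, osc sc (D.J S i) * osc sc (D.G i T) + osc sc (D.E S T) = if S = T then 1 else 0

/-- The decompositions of the frame. -/
structure Fr {G : Type} [AddCommGroup G] (ρ : L → L → L → G) : Prop where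
  d1 : ∀ T, Dec ρ D.e (D.t T :: D.c1 T)
  d2 : ∀ S T, (D.E S T).isSome → Dec ρ D.e (D.t S :: D.t T :: D.c2 S T)

end Des

/-- The generic network. -/
def GEN : Prop :=
  ∀ (I K L σ : Type) [Fintype I] [DecidableEq I] [Fintype K] (D : Des I K L σ) (r v c : ℕ),
    Fintype.card I = v → Fintype.card K = c → D.Ok → 2 * v ^ 3 + 3 * v ^ 2 * (v ^ 2 + c) ≤ 2 ^ r →
    ∃ prog : List (NI ℕ σ (L × L × L)),
      (∀ q ∈ prog, q.Wf (· < 2 ^ r) fun l => D.good l.1 ∧ D.good l.2.1 ∧ D.good l.2.2) ∧
      prog.countP (fun q => !q.isG) + v ^ 3 = 2 ^ r * (D.g + 2) ^ 3 + 6 * v ^ 2 * c * (D.g + 2) ∧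
      prog.countP NI.isG ≤ 12 * v ^ 3 * (v + c) + 3 * v ^ 3 ∧
      ∀ (R : Type) [CommRing R] (sc : σ → R), D.Sc sc →
      ∀ (G : Type) [AddCommGroup G] (ρ : L → L → L → G), D.Fr ρ →
      ∀ (M : Type) [AddCommGroup M] [Module R M] (Φ : G → M →ₗ[R] M), (∀ z, Φ 0 z = z) →
        (∀ g g' z, Φ (g + g') z = Φ g (Φ g' z)) → ∀ (x : ℕ → M) (w : ℕ), w < 2 ^ r →
          prog.foldl (NI.run sc (fun l => ρ l.1 l.2.1 l.2.2) Φ) x w = Φ (full ρ D.e) (x w)

end Vale.Agent.P338Z.Net
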