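import Vale.Agent.P338Z.Net.Gen4

/-!
P338 power saving: the generic network.
-/

namespace Vale.Agent.P338Z.Net

open Sum

variable {I K L σ R G M : Type} {n : ℕ}

namespace Des

variable (D : Des I K L σ) (n)

/-- The four global changes of the frames. -/
def rg : Fin 4 → Gw I K n → List (Option Bool × L × L × L)
  | 0 => gl (fun b s => cond b [(none, D.t s.1, D.t s.2.1, D.t s.2.2)] [])
      ![fun _ => [], fun p => up (p3 (D.c1 p.1) D.e [D.t p.2]),
        fun p => up (p3 (D.c1 p.1) D.e D.e ++ p3 [D.t p.1] (D.c1 p.2) D.e)] (up (p3 D.e D.e D.e))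
  | 1 => gl (fun _ s => up (p3 (D.c1 s.1) (D.c1 s.2.1) [D.t s.2.2])) (fun _ _ => []) []
  | 2 => gl (fun _ s => up (p3 (D.c1 s.1) D.e (D.c1 s.2.2) ++
      p3 [D.t s.1] (D.c1 s.2.1) (D.c1 s.2.2))) (fun _ _ => []) []
  | 3 => gl (fun _ _ => []) ![fun p => up (p3 D.e (D.c1 p.1) [D.t p.2] ++ p3 D.e D.e (D.c1 p.2)),
      fun p => up (p3 D.e D.e (D.c1 p.2)), fun _ => []] []

variable [Fintype I] [Fintype K]

/-- The final gates. -/
noncomputable def fin (b s : Bool) : List (NI (Gw I K n) σ (L × L × L)) :=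
  gs (J := I × I × I) (fun a => inl (b, a)) (fun a => inl (!b, a)) fun _ => some (D.sg s D.one)

/-- The three stages. -/
noncomputable def main : List (NI (Gw I K n) σ (L × L × L)) :=
  rs (D.rg n 0) ++ (D.inv (fun p a => (a, D.t p.1, D.t p.2)) false).map (NI.map (em n 0 q0)) ++
    rs (D.rg n 1) ++ (D.inv (fun p a => (D.t p.1, a, D.t p.2)) true).map (NI.map (em n 1 q1)) ++
    rs (D.rg n 2) ++ (D.inv (fun p a => (D.t p.1, D.t p.2, a)) false).map (NI.map (em n 2 q2)) ++
    rs (D.rg n 3)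

/-- The network. -/
noncomputable def all : List (NI (Gw I K n) σ (L × L × L)) :=
  D.main n ++ D.fin n true false ++ D.fin n false true ++ D.fin n true false

variable {D}

theorem bd_all (hD : D.Ok) {v c : ℕ} (hv : Fintype.card I = v) (hc : Fintype.card K = c) :
    ∃ m, Bd (fun l => D.good l.1 ∧ D.good l.2.1 ∧ D.good l.2.2) (D.all n) m
      (12 * v ^ 3 * (v + c) + 3 * v ^ 3) ∧ m + v ^ 3 =
        (2 * v ^ 3 + 3 * v ^ 2 * (v ^ 2 + c) + n) * (D.g + 2) ^ 3 + 6 * v ^ 2 * c * (D.g + 2) := by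
  have ht : ∀ S, ∀ a ∈ [D.t S], D.good a := fun S a ha => List.mem_singleton.1 ha ▸ hD.gt S
  have he := hD.ge
  have h1 := hD.g1
  have hr : ∀ k, Bd (fun l => D.good l.1 ∧ D.good l.2.1 ∧ D.good l.2.2)
      (rs (D.rg n k) : List (NI (Gw I K n) σ (L × L × L))) (∑ w, (D.rg n k w).length) 0 :=
    fun k => bd_rs <| by
      have h0 : ∀ z ∈ ([] : List (Option Bool × L × L × L)),
        D.good z.2.1 ∧ D.good z.2.2.1 ∧ D.good z.2.2.2 := fun z hz => nomatch hz
      have ap := fun {A : L × L × L → Prop} {l l' : List (L × L × L)} (h : ∀ a ∈ l, A a)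
        (h' : ∀ a ∈ l', A a) => mem_up (List.forall_mem_append.2 ⟨h, h'⟩)
      fin_cases k <;> rintro (⟨b, s⟩ | ⟨j, p, w⟩ | i)
      · cases b
        · exact h0
        · exact fun z hz => List.mem_singleton.1 hz ▸ ⟨hD.gt _, hD.gt _, hD.gt _⟩
      · fin_cases j
        exacts [h0, mem_up (mem_p3 (h1 _) he (ht _)),
          ap (mem_p3 (h1 _) he he) (mem_p3 (ht _) (h1 _) he)]
      · exact mem_up (mem_p3 he he he)
      · exact mem_up (mem_p3 (h1 _) (h1 _) (ht _))
      · exact h0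
      · exact h0
      · exact ap (mem_p3 (h1 _) he (h1 _)) (mem_p3 (ht _) (h1 _) (h1 _))
      · exact h0
      · exact h0
      · exact h0
      · fin_cases j
        exacts [ap (mem_p3 he (h1 _) (ht _)) (mem_p3 he he (h1 _)),
          mem_up (mem_p3 he he (h1 _)), h0]
      · exact h0
  have hf : ∀ b s, Bd (fun l => D.good l.1 ∧ D.good l.2.1 ∧ D.good l.2.2) (D.fin n b s) 0 _ :=
    fun b s => bd_gs _ (by simp)
  refine ⟨_, ((((((((((hr 0).append ((bd_inv false hD fun p a h => ⟨h, hD.gt _, hD.gt _⟩).map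
    (em_inj 0 q0))).append (hr 1)).append ((bd_inv true hD fun p a h =>
    ⟨hD.gt _, h, hD.gt _⟩).map (em_inj 1 q1))).append (hr 2)).append ((bd_inv false hD
    fun p a h => ⟨hD.gt _, hD.gt _, h⟩).map (em_inj 2 q2))).append (hr 3)).append
    (hf _ _)).append (hf _ _)).append (hf _ _)).cast rfl (le_of_eq ?_), ?_⟩
  · simp [hv, hc]; ring
  · simp [Fintype.sum_prod_type, Fin.sum_univ_three, rg, gl, up, len_p3, hD.le, hD.l1, hv, hc]
    ring

variable [CommRing R] [AddCommGroup G] [AddCommGroup M] [Module R M] [DecidableEq I]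
  [DecidableEq (Gw I K n)]

theorem ex_all (C : Cx σ (L × L × L) R G M) (hS : D.Sc C.sc) {ρ : L → L → L → G}
    (hρ : C.ρ = fun l => ρ l.1 l.2.1 l.2.2) (hF : D.Fr ρ) (x : Gw I K n → M) :
    C.ex (D.all n) x = fun w => C.Φ (full ρ D.e) (x w) := by
  set N := n3 ρ with hN
  have t1 := fun T b c => ((hF.d1 T).tri b c).1
  have t2 := fun T b c => ((hF.d1 T).tri b c).2.1
  have t3 := fun T b c => ((hF.d1 T).tri b c).2.2
  have n1 : ∀ a b c, ρ a b c = N [a] [b] [c] := fun a b c => by simp [hN, n3]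
  have sp : ∀ a b c, ((p3 a b c).map C.ρ).sum = N a b c := fun a b c => by rw [hρ, sum_p3]
  have two : ∀ S T, (D.E S T).isSome → ∀ b c, N (D.c2 S T) [b] [c] = N D.e [b] [c] -
      ρ (D.t S) b c - ρ (D.t T) b c ∧ N [b] (D.c2 S T) [c] = N [b] D.e [c] -
      ρ b (D.t S) c - ρ b (D.t T) c ∧ N [b] [c] (D.c2 S T) = N [b] [c] D.e -
      ρ b c (D.t S) - ρ b c (D.t T) := fun S T h b c => by
    obtain ⟨h1, h2, h3⟩ := hF.d2 S T h b c
    simp only [hN, n3, List.map_cons, List.map_nil, List.sum_cons, List.sum_nil, add_zero,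
      ← h1, ← h2, ← h3]
    exact ⟨by abel, by abel, by abel⟩
  have m0 : ∀ (l : List L) b c, ((l.map fun a => (a, b, c)).map C.ρ).sum = N l [b] [c] :=
    fun l b c => by simp [hρ, hN, n3, Function.comp_def]
  have m1 : ∀ (l : List L) b c, ((l.map fun a => (b, a, c)).map C.ρ).sum = N [b] l [c] :=
    fun l b c => by simp [hρ, hN, n3, Function.comp_def]
  have m2 : ∀ (l : List L) b c, ((l.map fun a => (b, c, a)).map C.ρ).sum = N [b] [c] l :=
    fun l b c => by simp [hρ, hN, n3, Function.comp_def]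
  have hc : ∀ a b c, C.ρ (a, b, c) = N [a] [b] [c] := fun a b c => by rw [hρ, ← n1]
  let u : I × I × I → G := fun s => N [D.t s.1] [D.t s.2.1] [D.t s.2.2]
  let F := N D.e D.e D.e
  let U0 : I × I → G := fun p => N D.e [D.t p.1] [D.t p.2]
  let U1 : I × I → G := fun p => N [D.t p.1] D.e [D.t p.2]
  let U2 : I × I → G := fun p => N [D.t p.1] [D.t p.2] D.e
  let V : I × I → G := fun p => N D.e D.e [D.t p.2]
  let lo : (I × I × I → G) → Bool → I × I × I → G := fun f b s => cond b (f s + u s) (f s)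
  let hi : (I × I × I → G) → Bool → I × I × I → G := fun f b s => cond b (f s) (f s - u s)
  have hr : ∀ (k : Fin 4) (l l' : Gw I K n → G),
      (∀ w, l' w = l w + ((D.rg n k w).map (fv C.ρ)).sum) →
      C.Tr (rs (D.rg n k)) l l' fun y => y := fun k l l' h => Cx.tr_rs _ h
  have r0 := hr 0 (gl (fun b s => cond b (-u s) 0) (fun _ _ => 0) 0)
      (gl (lo fun _ => 0) ![fun _ => 0, fun p => V p - U1 p, fun p => F - U2 p] F) (by
    rintro (⟨_ | _, s⟩ | ⟨j, p, w⟩ | i)
    · simp [rg, gl, lo]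
    · simp [rg, gl, lo, fv, hc, u]
    · fin_cases j <;> simp [rg, gl, fv_up, sp, t1, t2, hN, V, U1, U2, F]
    · simp [rg, gl, fv_up, sp, F])
  have s0 := tr_stage (n := n) hS false 0 q0 (μ := fun p a => (a, D.t p.1, D.t p.2)) (fun _ => 0) U0
    (fun p => m0 ..) (fun p T => by rw [m0, hc]; exact t1 ..)
    (fun p S T h => by rw [m0, hρ]; exact (two S T h _ _).1) (d := lo fun _ => 0)
    (d' := hi fun s => U0 s.2) (a := ![fun _ => 0, fun p => V p - U1 p, fun p => F - U2 p])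
    (a' := ![U0, fun p => V p - U1 p, fun p => F - U2 p]) (z := F)
    (fun b p S => by rw [hc]; rfl) (fun b p S => by rw [hc, zero_add]; rfl) (fun _ => rfl)
    (fun _ => (zero_add _).symm) (fun j p h => by fin_cases j <;> first | rfl | exact (h rfl).elim)
  have r1 := hr 1 (gl (hi fun s => U0 s.2) ![U0, fun p => V p - U1 p, fun p => F - U2 p] F)
      (gl (lo fun s => V s.2 - U1 (s.1, s.2.2)) ![U0, fun p => V p - U1 p, fun p => F - U2 p] F) (by
    rintro (⟨_ | _, s⟩ | ⟨j, p, w⟩ | i)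
    · simp only [rg, gl, lo, hi, cond, fv_up, sp, t1, t2, hN, V, U0, U1, u]; abel
    · simp only [rg, gl, lo, hi, cond, fv_up, sp, t1, t2, hN, V, U0, U1, u]; abel
    · simp [rg, gl]
    · simp [rg, gl])
  have s1 := tr_stage (n := n) hS true 1 q1 (μ := fun p a => (D.t p.1, a, D.t p.2))
    (fun p => V p - U1 p) U1 (fun p => m1 ..) (fun p T => by rw [m1, hc]; exact t2 ..)
    (fun p S T h => by rw [m1, hρ]; exact (two S T h _ _).2.1)
    (d := lo fun s => V s.2 - U1 (s.1, s.2.2)) (d' := hi fun s => V s.2)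
    (a := ![U0, fun p => V p - U1 p, fun p => F - U2 p]) (a' := ![U0, V, fun p => F - U2 p])
    (z := F) (fun b p S => by rw [hc]; rfl) (fun b p S => by rw [hc, sub_add_cancel]; rfl)
    (fun _ => rfl) (fun _ => (sub_add_cancel _ _).symm)
    (fun j p h => by fin_cases j <;> first | rfl | exact (h rfl).elim)
  have r2 := hr 2 (gl (hi fun s => V s.2) ![U0, V, fun p => F - U2 p] F)
      (gl (lo fun s => F - U2 (s.1, s.2.1)) ![U0, V, fun p => F - U2 p] F) (by
    rintro (⟨_ | _, s⟩ | ⟨j, p, w⟩ | i)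
    · simp only [rg, gl, lo, hi, cond, fv_up, List.map_append, List.sum_append, sp, t1, t2, t3, hN,
        V, U2, F, u]; abel
    · simp only [rg, gl, lo, hi, cond, fv_up, List.map_append, List.sum_append, sp, t1, t2, t3, hN,
        V, U2, F, u]; abel
    · simp [rg, gl]
    · simp [rg, gl])
  have s2 := tr_stage (n := n) hS false 2 q2 (μ := fun p a => (D.t p.1, D.t p.2, a))
    (fun p => F - U2 p) U2 (fun p => m2 ..) (fun p T => by rw [m2, hc]; exact t3 ..)
    (fun p S T h => by rw [m2, hρ]; exact (two S T h _ _).2.2)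
    (d := lo fun s => F - U2 (s.1, s.2.1)) (d' := hi fun _ => F)
    (a := ![U0, V, fun p => F - U2 p]) (a' := ![U0, V, fun _ => F])
    (z := F) (fun b p S => by rw [hc]; rfl) (fun b p S => by rw [hc, sub_add_cancel]; rfl)
    (fun _ => rfl) (fun _ => (sub_add_cancel _ _).symm)
    (fun j p h => by fin_cases j <;> first | rfl | exact (h rfl).elim)
  have r3 := hr 3 (gl (hi fun _ => F) ![U0, V, fun _ => F] F) (gl (hi fun _ => F) (fun _ _ => F) F)
    (by
      rintro (⟨b, s⟩ | ⟨j, p, w⟩ | i)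
      · simp [rg, gl]
      · fin_cases j <;> simp [rg, gl, fv_up, sp, t2, t3, hN, V, U0, F]
      · simp [rg, gl])
  have h := ((((((r0.append s0).append r1).append s1).append r2).append s2).append r3)
    fun w => C.Φ (-gl (fun b s => cond b (-u s) 0) (fun _ _ => 0) 0 w) (x w)
  have hx : C.ph (gl (fun b s => cond b (-u s) 0) (fun _ _ => 0) 0)
      (fun w => C.Φ (-gl (fun b s => cond b (-u s) 0) (fun _ _ => 0) 0 w) (x w)) = x :=
    funext fun w => by rw [Cx.ph, ← C.ha, add_neg_cancel, C.h0]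
  rw [hx] at h
  have hf : ∀ b s (y : Gw I K n → M), C.ex (D.fin n b s) y =
      gD b y fun a => cond s (-y (inl (!b, a))) (y (inl (!b, a))) := fun b s y => by
    rw [fin, Cx.ex_gs _ (by simp)]
    funext w
    rcases w with ⟨b', a⟩ | w
    · by_cases e : b' = b <;> cases s <;>
        simp [gD, osc, sg, hS.one, hS.ng, e, @eq_comm _ b b']
    · simp [gD]
  rw [all, Cx.ex_append, Cx.ex_append, Cx.ex_append, main, h, hf, hf, hf]
  funext w
  rcases w with ⟨_ | _, s⟩ | ⟨j, p, w⟩ | i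
  · simp [gD, Cx.ph, gl, hi, C.h0]; rfl
  · simp [gD, Cx.ph, gl, hi, C.h0, ← C.ha]; rfl
  · simp [gD, Cx.ph, gl, C.h0]; rfl
  · simp [gD, Cx.ph, gl, C.h0]; rfl

end Des

theorem gen : GEN := by
  intro I K L σ _ _ _ D r v c hv hc hD hr
  classical
  obtain ⟨n, hn⟩ := Nat.exists_eq_add_of_le hr
  have hk : Fintype.card (Gw I K n) = 2 ^ r := by
    rw [hn]; simp [hv, hc]; ring
  let e := Fintype.equivFinOfCardEq hk
  have hi : Function.Injective fun w => (e w : ℕ) := Fin.val_injective.comp e.injective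
  obtain ⟨m, hB, hm⟩ := Des.bd_all n hD hv hc
  refine ⟨(D.all n).map (NI.map fun w => (e w : ℕ)), fun q hq => ?_, ?_, (hB.map hi).cg, ?_⟩
  · obtain ⟨q, h, rfl⟩ := List.mem_map.1 hq
    exact wf_map hi (fun w => (e w).2) (hB.wf q h)
  · rw [(hB.map hi).cn, hm, hn]
  · intro R _ sc hS G _ ρ hF M _ _ Φ h0 ha x w hw
    have := (Cx.ex_map (C := ⟨sc, fun l => ρ l.1 l.2.1 l.2.2, Φ, h0, ha⟩) hi (D.all n) x).1
      (e.symm ⟨w, hw⟩)
    rw [Des.ex_all n _ hS rfl hF] at this
    simpa [Cx.ex] using this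

end Vale.Agent.P338Z.Net
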