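import Vale.Agent.P338Z.Net.GDefs

/-!
P338 power saving: the calculus of frames.
-/

namespace Vale.Agent.P338Z.Net

open NI

/-- Scalars, atoms and the action of the frames. -/
structure Cx (σ Λ R G M : Type) [CommRing R] [AddCommGroup G] [AddCommGroup M] [Module R M] where
  /-- scalars -/
  sc : σ → R
  /-- atoms -/
  ρ : Λ → G
  /-- action -/
  Φ : G → M →ₗ[R] M
  h0 : ∀ z, Φ 0 z = z
  ha : ∀ g g' z, Φ (g + g') z = Φ g (Φ g' z)

variable {ι κ σ Λ J R G M : Type} [CommRing R] [AddCommGroup G] [AddCommGroup M] [Module R M]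

/-- Renaming of the wires. -/
def NI.map (f : κ → ι) : NI κ σ Λ → NI ι σ Λ
  | gate i j s => gate (f i) (f j) s
  | call i n l => call (f i) n l
  | dbl i l => dbl (f i) l

/-- A change of the frame. -/
def fi (w : ι) : Option Bool × Λ → NI ι σ Λ
  | (some n, l) => call w n l
  | (none, l) => dbl w l

/-- Its value. -/
def fv (ρ : Λ → G) : Option Bool × Λ → G
  | (some n, l) => if n then -ρ l else ρ l
  | (none, l) => ρ l + ρ l

/-- Changes of the frames of all wires. -/
noncomputable def rs [Fintype ι] (c : ι → List (Option Bool × Λ)) : List (NI ι σ Λ) :=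
  (Finset.univ : Finset ι).toList.flatMap fun w => (c w).map (fi w)

/-- A family of gates. -/
noncomputable def gs [Fintype J] (tg sr : J → ι) (co : J → Option σ) : List (NI ι σ Λ) :=
  (Finset.univ : Finset J).toList.filterMap fun k => (co k).map (gate (tg k) (sr k))

/-- Well formed, `n` changes of frames, at most `m` gates. -/
structure Bd (A : Λ → Prop) (p : List (NI ι σ Λ)) (n m : ℕ) : Prop where
  wf : ∀ q ∈ p, q.Wf (fun _ => True) A
  cn : p.countP (fun q => !q.isG) = n
  cg : p.countP isG ≤ m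

theorem Bd.append {A : Λ → Prop} {p q : List (NI ι σ Λ)} {n m n' m' : ℕ} (h : Bd A p n m)
    (h' : Bd A q n' m') : Bd A (p ++ q) (n + n') (m + m') :=
  ⟨fun z hz => (List.mem_append.1 hz).elim (h.wf z) (h'.wf z),
    by rw [List.countP_append, h.cn, h'.cn],
    by rw [List.countP_append]; exact Nat.add_le_add h.cg h'.cg⟩

theorem Bd.cast {A : Λ → Prop} {p : List (NI ι σ Λ)} {n m n' m' : ℕ} (h : Bd A p n m)
    (h1 : n = n') (h2 : m ≤ m') : Bd A p n' m' := ⟨h.wf, h1 ▸ h.cn, h.cg.trans h2⟩

theorem isG_map (f : κ → ι) (q : NI κ σ Λ) : (q.map f).isG = q.isG := by cases q <;> rfl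

theorem wf_map {A : Λ → Prop} {f : κ → ι} (hf : Function.Injective f) {W : ι → Prop}
    (hW : ∀ w, W (f w)) {q : NI κ σ Λ} (h : q.Wf (fun _ => True) A) : (q.map f).Wf W A := by
  cases q with
  | gate i j s => exact ⟨hW _, hW _, fun e => h.2.2 (hf e)⟩
  | call i n l => exact ⟨hW _, h.2⟩
  | dbl i l => exact ⟨hW _, h.2⟩

theorem Bd.map {A : Λ → Prop} {p : List (NI κ σ Λ)} {n m : ℕ} (h : Bd A p n m) {f : κ → ι}
    (hf : Function.Injective f) : Bd A (p.map (NI.map f)) n m := by
  refine ⟨fun z hz => ?_, ?_, ?_⟩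
  · obtain ⟨q, hq, rfl⟩ := List.mem_map.1 hz
    exact wf_map hf (fun _ => trivial) (h.wf q hq)
  · rw [List.countP_map, ← h.cn]
    exact List.countP_congr fun q _ => by simp [isG_map]
  · rw [List.countP_map]
    exact le_of_eq_of_le (List.countP_congr fun q _ => by simp [isG_map]) h.cg

theorem isG_fi (w : ι) (z : Option Bool × Λ) : (fi w z : NI ι σ Λ).isG = false := by
  rcases z with ⟨_ | n, l⟩ <;> rfl

theorem bd_rs [Fintype ι] {A : Λ → Prop} {c : ι → List (Option Bool × Λ)}
    (h : ∀ w, ∀ z ∈ c w, A z.2) : Bd A (rs c : List (NI ι σ Λ)) (∑ w, (c w).length) 0 := by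
  have h1 : ∀ q ∈ (rs c : List (NI ι σ Λ)), ∃ w, ∃ z ∈ c w, fi w z = q := fun q hq => by
    obtain ⟨w, -, hw⟩ := List.mem_flatMap.1 hq
    exact ⟨w, List.mem_map.1 hw⟩
  refine ⟨fun q hq => ?_, ?_, ?_⟩
  · obtain ⟨w, ⟨_ | n, l⟩, hz, rfl⟩ := h1 q hq <;> exact ⟨trivial, h w _ hz⟩
  · rw [List.countP_eq_length.2 fun q hq => by
      obtain ⟨w, z, -, rfl⟩ := h1 q hq
      simp [isG_fi]]
    simp [rs, List.length_flatMap]
  · refine (List.countP_eq_zero.2 fun q hq => ?_).le
    obtain ⟨w, z, -, rfl⟩ := h1 q hq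
    simp [isG_fi]

theorem bd_gs [Fintype J] {A : Λ → Prop} {tg sr : J → ι} (co : J → Option σ)
    (h : ∀ k k', tg k ≠ sr k') : Bd A (gs tg sr co : List (NI ι σ Λ)) 0 (Fintype.card J) := by
  have h1 : ∀ q ∈ (gs tg sr co : List (NI ι σ Λ)), ∃ k s, gate (tg k) (sr k) s = q :=
    fun q hq => by
      obtain ⟨k, -, hk⟩ := List.mem_filterMap.1 hq
      obtain ⟨s, -, hs⟩ := Option.map_eq_some_iff.1 hk
      exact ⟨k, s, hs⟩
  refine ⟨fun q hq => ?_, List.countP_eq_zero.2 fun q hq => ?_, ?_⟩
  · obtain ⟨k, s, rfl⟩ := h1 q hq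
    exact ⟨trivial, trivial, (h k k).symm⟩
  · obtain ⟨k, s, rfl⟩ := h1 q hq
    simp [isG]
  · exact List.countP_le_length.trans ((List.length_filterMap_le _ _).trans (by simp))

namespace Cx

variable (C : Cx σ Λ R G M) [DecidableEq ι] [DecidableEq κ]

/-- Execution. -/
def ex (p : List (NI ι σ Λ)) (x : ι → M) : ι → M := p.foldl (run C.sc C.ρ C.Φ) x

/-- The contents of the wires with labels `l` and virtual values `y`. -/
def ph (l : ι → G) (y : ι → M) : ι → M := fun w => C.Φ (l w) (y w)

/-- The program changes the labels from `l` to `l'` and acts as `f` on the virtual values. -/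
def Tr (p : List (NI ι σ Λ)) (l l' : ι → G) (f : (ι → M) → ι → M) : Prop :=
  ∀ y, C.ex p (C.ph l y) = C.ph l' (f y)

variable {C}

theorem ex_append (p q : List (NI ι σ Λ)) (x : ι → M) : C.ex (p ++ q) x = C.ex q (C.ex p x) :=
  List.foldl_append

theorem Tr.append {p q : List (NI ι σ Λ)} {l l' l'' : ι → G} {f f' : (ι → M) → ι → M}
    (h : C.Tr p l l' f) (h' : C.Tr q l' l'' f') : C.Tr (p ++ q) l l'' fun y => f' (f y) :=
  fun y => by rw [ex_append, h, h']

theorem Tr.cast {p : List (NI ι σ Λ)} {l l' : ι → G} {f f' : (ι → M) → ι → M}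
    (h : C.Tr p l l' f) (e : ∀ y, f y = f' y) : C.Tr p l l' f' := fun y => by rw [h, e]

theorem ex_one (w : ι) (c : List (Option Bool × Λ)) (x : ι → M) :
    C.ex (c.map (fi w)) x = Function.update x w (C.Φ (c.map (fv C.ρ)).sum (x w)) := by
  induction c generalizing x with
  | nil => simp [ex, C.h0]
  | cons z c ih =>
    have : run C.sc C.ρ C.Φ x (fi w z) = Function.update x w (C.Φ (fv C.ρ z) (x w)) := by
      rcases z with ⟨_ | n, l⟩ <;> rfl
    refine (ih _).trans ?_
    rw [this, Function.update_idem, Function.update_self, List.map_cons, List.sum_cons, add_comm,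
      C.ha]

theorem tr_rs [Fintype ι] (c : ι → List (Option Bool × Λ)) {l l' : ι → G}
    (h : ∀ w, l' w = l w + ((c w).map (fv C.ρ)).sum) : C.Tr (rs c) l l' fun y => y := by
  have key : ∀ ws : List ι, ws.Nodup → ∀ x, C.ex (ws.flatMap fun w => (c w).map (fi w)) x =
      fun w => if w ∈ ws then C.Φ ((c w).map (fv C.ρ)).sum (x w) else x w := by
    intro ws
    induction ws with
    | nil => intro _ x; simp [ex]
    | cons a ws ih =>
      intro hn x
      rw [List.flatMap_cons, ex_append, ih (List.nodup_cons.1 hn).2, ex_one]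
      funext w
      by_cases e : w = a
      · subst e
        simp [(List.nodup_cons.1 hn).1]
      · simp [e]
  intro y
  rw [rs, key _ (Finset.nodup_toList _)]
  funext w
  simp only [Finset.mem_toList, Finset.mem_univ, if_true, ph]
  rw [h, add_comm, C.ha]

theorem ex_gs [Fintype J] {tg sr : J → ι} (co : J → Option σ) (h : ∀ k k', tg k ≠ sr k')
    (x : ι → M) : C.ex (gs tg sr co) x =
      fun w => x w + ∑ k, if tg k = w then osc C.sc (co k) • x (sr k) else 0 := by
  have key : ∀ (ks : List J) (x : ι → M),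
      C.ex (ks.filterMap fun k => (co k).map (gate (tg k) (sr k))) x = fun w =>
        x w + (ks.map fun k => if tg k = w then osc C.sc (co k) • x (sr k) else 0).sum := by
    intro ks
    induction ks with
    | nil => intro x; simp [ex]
    | cons a ks ih =>
      intro x
      cases e : co a with
      | none =>
        rw [List.filterMap_cons_none (by rw [e]; rfl), ih]
        simp [e, osc]
      | some s =>
        rw [List.filterMap_cons_some (by rw [e]; rfl)]
        refine (ih _).trans (funext fun w => ?_)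
        have : ∀ k, Function.update x (tg a) (x (tg a) + C.sc s • x (sr a)) (sr k) = x (sr k) :=
          fun k => Function.update_of_ne (h a k).symm _ _
        simp only [run, this, List.map_cons, List.sum_cons, e, osc]
        by_cases e' : tg a = w
        · subst e'
          simp [add_assoc]
        · simp [e', Ne.symm e']
  rw [gs, key]
  simp

theorem tr_gs [Fintype J] {tg sr : J → ι} (co : J → Option σ) (h : ∀ k k', tg k ≠ sr k')
    {l : ι → G} (hl : ∀ k, (co k).isSome → l (tg k) = l (sr k)) : C.Tr (gs tg sr co) l l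
      fun y w => y w + ∑ k, if tg k = w then osc C.sc (co k) • y (sr k) else 0 := by
  intro y
  rw [ex_gs co h]
  funext w
  simp only [ph, map_add, map_sum]
  refine congrArg _ (Finset.sum_congr rfl fun k _ => ?_)
  split_ifs with e
  · cases e' : co k with
    | none => simp [osc]
    | some s => rw [map_smul, ← e, hl k (by rw [e']; rfl)]
  · simp

theorem ex_map {f : κ → ι} (hf : Function.Injective f) (p : List (NI κ σ Λ)) (x : ι → M) :
    (∀ w, C.ex (p.map (NI.map f)) x (f w) = C.ex p (fun w => x (f w)) w) ∧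
      ∀ w, (∀ k, f k ≠ w) → C.ex (p.map (NI.map f)) x w = x w := by
  induction p generalizing x with
  | nil => exact ⟨fun _ => rfl, fun _ _ => rfl⟩
  | cons q p ih =>
    have h1 : (fun w => run C.sc C.ρ C.Φ x (q.map f) (f w)) =
        run C.sc C.ρ C.Φ (fun w => x (f w)) q := by
      cases q <;> exact Function.update_comp_eq_of_injective x hf _ _
    refine ⟨fun w => ((ih _).1 w).trans (by rw [h1]; rfl), fun w hw => ((ih _).2 w hw).trans ?_⟩
    cases q <;> exact Function.update_of_ne (hw _).symm _ _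

theorem Tr.emb {f : κ → ι} (hf : Function.Injective f) {p : List (NI κ σ Λ)} {l l' : ι → G}
    {a : (κ → M) → κ → M} (h : C.Tr p (fun w => l (f w)) (fun w => l' (f w)) a)
    {F : (ι → M) → ι → M} (hF : ∀ y w, F y (f w) = a (fun w => y (f w)) w)
    (ho : ∀ w, (∀ k, f k ≠ w) → l' w = l w ∧ ∀ y, F y w = y w) :
    C.Tr (p.map (NI.map f)) l l' F := by
  intro y
  funext w
  by_cases e : ∃ k, f k = w
  · obtain ⟨k, rfl⟩ := e
    rw [(ex_map hf p _).1]
    exact (congrFun (h fun w => y (f w)) k).trans (by simp only [ph, hF])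
  · have e' := not_exists.1 e
    rw [(ex_map hf p _).2 w e']
    simp only [ph, (ho w e').1, (ho w e').2]

end Cx

end Vale.Agent.P338Z.Net
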