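import Vale.Agent.P338Z.Net.Gen1

/-!
P338 power saving: the invocations, all at once (parameter `p`); `b` is the side which receives.
-/

namespace Vale.Agent.P338Z.Net

open Sum

/-- Wires of the invocations: data (`true`: `X`, `false`: `Y`), side wires, central wires. -/
abbrev Lw (P I K : Type) : Type := P × ((Bool × I) ⊕ (I × I) ⊕ K)

variable {P I K L σ Λ R G M α : Type}

/-- Functions on the wires. -/
def lw (d : P → Bool → I → α) (a : P → I → I → α) (c : P → K → α) : Lw P I K → α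
  | (p, inl (b, S)) => d p b S
  | (p, inr (inl (S, T))) => a p S T
  | (p, inr (inr i)) => c p i

/-- Upward changes. -/
def up (l : List Λ) : List (Option Bool × Λ) := l.map fun a => (some false, a)

/-- Downward changes. -/
def dn (l : List Λ) : List (Option Bool × Λ) := l.map fun a => (some true, a)

theorem fv_up [AddCommGroup G] (ρ : Λ → G) (l : List Λ) :
    ((up l).map (fv ρ)).sum = (l.map ρ).sum := by
  rw [up, List.map_map]; rfl

theorem fv_dn [AddCommGroup G] (ρ : Λ → G) (l : List Λ) :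
    ((dn l).map (fv ρ)).sum = -(l.map ρ).sum := by
  induction l with
  | nil => simp [dn]
  | cons a l ih =>
    rw [dn] at ih ⊢
    rw [List.map_cons, List.map_cons, List.sum_cons, ih, List.map_cons, List.sum_cons, neg_add]
    rfl

theorem mem_up {A : Λ → Prop} {l : List Λ} (h : ∀ a ∈ l, A a) : ∀ z ∈ up l, A z.2 := fun z hz => by
  obtain ⟨a, ha, rfl⟩ := List.mem_map.1 hz
  exact h a ha

theorem mem_dn {A : Λ → Prop} {l : List Λ} (h : ∀ a ∈ l, A a) : ∀ z ∈ dn l, A z.2 := fun z hz => by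
  obtain ⟨a, ha, rfl⟩ := List.mem_map.1 hz
  exact h a ha

namespace Des

variable (D : Des I K L σ) (μ : P → L → Λ) (b : Bool)

/-- Signed code. -/
def sg (n : Bool) (s : σ) : σ := cond n (D.ng s) s

/-- The six changes of the frames. -/
def rr : Fin 6 → Lw P I K → List (Option Bool × Λ)
  | 0 => lw (fun _ _ _ => []) (fun p S T => cond (D.E S T).isSome
      (up [μ p (D.t (cond b S T))]) []) fun _ _ => []
  | 1 => lw (fun p b' S => cond b' (up ((D.c1 S).map (μ p))) []) (fun _ _ _ => [])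
      fun p _ => up (D.e.map (μ p))
  | 2 => lw (fun _ _ _ => []) (fun _ _ _ => []) fun p _ => dn (D.e.map (μ p))
  | 3 => lw (fun p b' S => cond b' [] (up ((D.c1 S).map (μ p))))
      (fun p S T => cond (D.E S T).isSome (up ((D.c2 S T).map (μ p))) []) fun _ _ => []
  | 4 => lw (fun _ _ _ => []) (fun _ _ _ => []) fun p _ => up (D.e.map (μ p))
  | 5 => lw (fun _ _ _ => []) (fun p S T => cond (D.E S T).isSome
      (up [μ p (D.t (cond b T S))]) (up (D.e.map (μ p)))) fun _ _ => []

variable [Fintype P] [Fintype I] [Fintype K]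

/-- Side wires to data. -/
noncomputable def gE (n : Bool) : List (NI (Lw P I K) σ Λ) :=
  gs (J := P × I × I) (fun k => (k.1, inl (b, k.2.1))) (fun k => (k.1, inr (inl k.2)))
    fun k => (D.E k.2.1 k.2.2).map (D.sg n)

/-- Data to side wires. -/
noncomputable def gV (n : Bool) : List (NI (Lw P I K) σ Λ) :=
  gs (J := P × I × I) (fun k => (k.1, inr (inl k.2))) (fun k => (k.1, inl (!b, k.2.2)))
    fun k => (D.E k.2.1 k.2.2).map fun _ => D.sg n D.one

/-- Central wires to data. -/
noncomputable def gJ (n : Bool) : List (NI (Lw P I K) σ Λ) :=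
  gs (J := P × I × K) (fun k => (k.1, inl (b, k.2.1))) (fun k => (k.1, inr (inr k.2.2)))
    fun k => (D.J k.2.1 k.2.2).map (D.sg n)

/-- Data to central wires. -/
noncomputable def gG (n : Bool) : List (NI (Lw P I K) σ Λ) :=
  gs (J := P × I × K) (fun k => (k.1, inr (inr k.2.2))) (fun k => (k.1, inl (!b, k.2.1)))
    fun k => (D.G k.2.2 k.2.1).map (D.sg n)

/-- Gates and changes of the frames. -/
noncomputable def sched (g0 g1 g2 g3 g4 g5 g6 g7 : List (NI (Lw P I K) σ Λ)) :
    List (NI (Lw P I K) σ Λ) :=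
  g0 ++ g1 ++ rs (D.rr μ b 0) ++ g2 ++ rs (D.rr μ b 1) ++ g3 ++ rs (D.rr μ b 2) ++ g4 ++
    rs (D.rr μ b 3) ++ g5 ++ rs (D.rr μ b 4) ++ g6 ++ rs (D.rr μ b 5) ++ g7

/-- The invocations. -/
noncomputable def inv : List (NI (Lw P I K) σ Λ) :=
  cond b
    (D.sched μ b (D.gV b false) (D.gG b false) (D.gE b true) (D.gJ b true) (D.gG b true)
      (D.gV b true) (D.gJ b false) (D.gE b false))
    (D.sched μ b (D.gE b true) (D.gJ b true) (D.gV b false) (D.gG b false) (D.gJ b false)
      (D.gE b false) (D.gG b true) (D.gV b true))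

variable {D μ}

theorem bd_inv (hD : D.Ok) {A : Λ → Prop} (hA : ∀ p a, D.good a → A (μ p a)) :
    Bd A (D.inv μ b) (Fintype.card P * (2 * Fintype.card I * (D.g + 1) +
      Fintype.card I ^ 2 * (D.g + 2) + 3 * Fintype.card K * (D.g + 2)))
      (4 * Fintype.card P * Fintype.card I * (Fintype.card I + Fintype.card K)) := by
  have hm : ∀ p (l : List L), (∀ a ∈ l, D.good a) → ∀ a ∈ l.map (μ p), A a := fun p l h a ha => by
    obtain ⟨a, h', rfl⟩ := List.mem_map.1 ha
    exact hA p a (h a h')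
  have ht : ∀ p S, ∀ a ∈ [μ p (D.t S)], A a := fun p S a ha => by
    rw [List.mem_singleton.1 ha]; exact hA p _ (hD.gt S)
  have hr : ∀ k, Bd A (rs (D.rr μ b k) : List (NI (Lw P I K) σ Λ))
      (∑ w, (D.rr μ b k w).length) 0 := fun k => bd_rs <| by
    have h0 : ∀ z ∈ ([] : List (Option Bool × Λ)), A z.2 := fun z hz => nomatch hz
    have he := fun p => hm p _ hD.ge
    have h1 := fun p S => mem_up (hm p _ (hD.g1 S))
    rintro ⟨p, ⟨_ | _, S⟩ | ⟨S, T⟩ | i⟩
    · fin_cases k <;> first | exact h0 | exact h1 p S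
    · fin_cases k <;> first | exact h0 | exact h1 p S
    · cases e : (D.E S T).isSome <;> fin_cases k <;> simp only [rr, lw, e, cond] <;>
        first | exact h0 | exact mem_up (ht p _) | exact mem_up (he p)
              | exact mem_up (hm p _ (hD.g2 S T e))
    · fin_cases k <;> first | exact h0 | exact mem_up (he p) | exact mem_dn (he p)
  have hE : ∀ n, Bd A (D.gE (P := P) b n) 0 _ := fun n => bd_gs _ (by simp)
  have hV : ∀ n, Bd A (D.gV (P := P) b n) 0 _ := fun n => bd_gs _ (by simp)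
  have hJ : ∀ n, Bd A (D.gJ (P := P) b n) 0 _ := fun n => bd_gs _ (by simp)
  have hG : ∀ n, Bd A (D.gG (P := P) b n) 0 _ := fun n => bd_gs _ (by simp)
  have hs : ∑ w, (D.rr μ b 0 w).length + ∑ w, (D.rr μ b 1 w).length + ∑ w, (D.rr μ b 2 w).length +
      ∑ w, (D.rr μ b 3 w).length + ∑ w, (D.rr μ b 4 w).length + ∑ w, (D.rr μ b 5 w).length =
      ∑ w : Lw P I K, lw (fun _ _ _ => D.g + 1) (fun _ _ _ => D.g + 2)
        (fun _ _ => 3 * (D.g + 2)) w := by
    simp only [← Finset.sum_add_distrib]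
    refine Finset.sum_congr rfl ?_
    rintro ⟨p, ⟨_ | _, S⟩ | ⟨S, T⟩ | i⟩ -
    · simp [rr, lw, up, hD.l1]
    · simp [rr, lw, up, hD.l1]
    · cases e : (D.E S T).isSome
      · simp [rr, lw, up, e, hD.le]
      · simp [rr, lw, up, e, hD.l2 S T e]; omega
    · simp [rr, lw, up, dn, hD.le]; omega
  have hc : ∑ w : Lw P I K, lw (fun _ _ _ => D.g + 1) (fun _ _ _ => D.g + 2)
      (fun _ _ => 3 * (D.g + 2)) w = Fintype.card P * (2 * Fintype.card I * (D.g + 1) +
      Fintype.card I ^ 2 * (D.g + 2) + 3 * Fintype.card K * (D.g + 2)) := by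
    simp [Fintype.sum_prod_type, lw]
    exact Or.inl (by ring)
  have key : ∀ {g0 g1 g2 g3 g4 g5 g6 g7 m0 m1 m2 m3 m4 m5 m6 m7}, Bd A g0 0 m0 → Bd A g1 0 m1 →
      Bd A g2 0 m2 → Bd A g3 0 m3 → Bd A g4 0 m4 → Bd A g5 0 m5 → Bd A g6 0 m6 → Bd A g7 0 m7 →
      Bd A (D.sched μ b g0 g1 g2 g3 g4 g5 g6 g7) _ (m0 + m1 + m2 + m3 + m4 + m5 + m6 + m7) :=
    fun h0 h1 h2 h3 h4 h5 h6 h7 => (((((((((((((h0.append h1).append (hr 0)).append h2).append
      (hr 1)).append h3).append (hr 2)).append h4).append (hr 3)).append h5).append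
      (hr 4)).append h6).append (hr 5)).append h7).cast ((by omega : _ = _).trans (hs.trans hc))
      (by omega)
  cases b
  · exact (key (hE _) (hJ _) (hV _) (hG _) (hJ _) (hE _) (hG _) (hV _)).cast rfl
      (le_of_eq (by simp; ring))
  · exact (key (hV _) (hG _) (hE _) (hJ _) (hG _) (hV _) (hJ _) (hE _)).cast rfl
      (le_of_eq (by simp; ring))

end Des

end Vale.Agent.P338Z.Net
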