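import Vale.Agent.P338Z.Net.Gen2

/-!
P338 power saving: the invocations are correct.
-/

namespace Vale.Agent.P338Z.Net

open Sum

variable {P I K L σ Λ R G M : Type} [CommRing R] [AddCommGroup G] [AddCommGroup M] [Module R M]

namespace Des

variable {D : Des I K L σ} [Fintype P] [Fintype I] [Fintype K] [DecidableEq I]
  [DecidableEq (Lw P I K)] {C : Cx σ Λ R G M} (hS : D.Sc C.sc) (b n : Bool) {l : Lw P I K → G}

/-- Adding to the data of the side `b`. -/
def aD (b : Bool) (y : Lw P I K → M) (z : P → I → M) : Lw P I K → M :=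
  lw (fun p b' S => y (p, inl (b', S)) + if b' = b then z p S else 0)
    (fun p S T => y (p, inr (inl (S, T)))) fun p i => y (p, inr (inr i))

omit [Fintype P] [Fintype I] [DecidableEq (Lw P I K)] in
include hS in
theorem osc_sg (o : Option σ) : osc C.sc (o.map (D.sg n)) = cond n (-1) 1 * osc C.sc o := by
  cases o <;> cases n <;> simp [osc, sg, hS.ng]

omit [Fintype P] [Fintype I] [DecidableEq (Lw P I K)] in
include hS in
theorem osc_one (o : Option σ) :
    osc C.sc (o.map fun _ => D.sg n D.one) = cond n (-1) 1 * cond o.isSome 1 0 := by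
  cases o <;> cases n <;> simp [osc, sg, hS.ng, hS.one]

include hS

theorem tr_gE (hl : ∀ p S T, (D.E S T).isSome → l (p, inl (b, S)) = l (p, inr (inl (S, T)))) :
    C.Tr (D.gE b n) l l fun y => aD b y fun p S =>
      ∑ T, (cond n (-1) 1 * osc C.sc (D.E S T)) • y (p, inr (inl (S, T))) := by
  classical
  refine (Cx.tr_gs _ (by simp) fun k hk => hl _ _ _ (by simpa using hk)).cast fun y => funext ?_
  rintro ⟨p, ⟨b', S⟩ | ⟨S, T⟩ | i⟩
  · by_cases e : b' = b <;>
      simp [aD, lw, Fintype.sum_prod_type, osc_sg hS, ite_and, e, @eq_comm _ b b']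
  · simp [aD, lw]
  · simp [aD, lw]

theorem tr_gJ (hl : ∀ p S i, l (p, inl (b, S)) = l (p, inr (inr i))) :
    C.Tr (D.gJ b n) l l fun y => aD b y fun p S =>
      ∑ i, (cond n (-1) 1 * osc C.sc (D.J S i)) • y (p, inr (inr i)) := by
  classical
  refine (Cx.tr_gs _ (by simp) fun k _ => hl _ _ _).cast fun y => funext ?_
  rintro ⟨p, ⟨b', S⟩ | ⟨S, T⟩ | i⟩
  · by_cases e : b' = b <;>
      simp [aD, lw, Fintype.sum_prod_type, osc_sg hS, ite_and, e, @eq_comm _ b b']
  · simp [aD, lw]
  · simp [aD, lw]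

theorem tr_gV (hl : ∀ p S T, (D.E S T).isSome → l (p, inr (inl (S, T))) = l (p, inl (!b, T))) :
    C.Tr (D.gV b n) l l fun y => lw (fun p b' S => y (p, inl (b', S)))
      (fun p S T => y (p, inr (inl (S, T))) +
        (cond n (-1) 1 * cond (D.E S T).isSome 1 0 : R) • y (p, inl (!b, T)))
      fun p i => y (p, inr (inr i)) := by
  classical
  refine (Cx.tr_gs _ (by simp) fun k hk => hl _ _ _ (by simpa using hk)).cast fun y => funext ?_
  rintro ⟨p, ⟨b', S⟩ | ⟨S, T⟩ | i⟩
  · simp [lw]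
  · simp [lw, Fintype.sum_prod_type, osc_one hS, ite_and]
  · simp [lw]

theorem tr_gG (hl : ∀ p T i, l (p, inr (inr i)) = l (p, inl (!b, T))) :
    C.Tr (D.gG b n) l l fun y => lw (fun p b' S => y (p, inl (b', S)))
      (fun p S T => y (p, inr (inl (S, T)))) fun p i => y (p, inr (inr i)) +
        ∑ T, (cond n (-1) 1 * osc C.sc (D.G i T)) • y (p, inl (!b, T)) := by
  classical
  refine (Cx.tr_gs _ (by simp) fun k _ => hl _ _ _).cast fun y => funext ?_
  rintro ⟨p, ⟨b', S⟩ | ⟨S, T⟩ | i⟩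
  · simp [lw]
  · simp [lw]
  · simp [lw, Fintype.sum_prod_type, osc_sg hS, ite_and]

omit [Fintype P] [DecidableEq (Lw P I K)] in
theorem sum_id (S : I) (x : I → M) :
    ∑ i, osc C.sc (D.J S i) • ∑ T, osc C.sc (D.G i T) • x T +
      ∑ T, osc C.sc (D.E S T) • cond (D.E S T).isSome (1 : R) 0 • x T = x S := by
  have h1 : ∀ T, osc C.sc (D.E S T) • cond (D.E S T).isSome (1 : R) 0 • x T =
      osc C.sc (D.E S T) • x T := fun T => by cases D.E S T <;> simp [osc]
  simp only [h1, Finset.smul_sum, smul_smul]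
  rw [Finset.sum_comm, ← Finset.sum_add_distrib]
  simp only [← Finset.sum_smul, ← add_smul, hS.id, ite_smul, one_smul, zero_smul]
  simp

theorem tr_inv {μ : P → L → Λ} (D0 U : P → G) (he : ∀ p, ((D.e.map (μ p)).map C.ρ).sum = U p)
    (h1 : ∀ p T, (((D.c1 T).map (μ p)).map C.ρ).sum = U p - C.ρ (μ p (D.t T)))
    (h2 : ∀ p S T, (D.E S T).isSome →
      (((D.c2 S T).map (μ p)).map C.ρ).sum = U p - C.ρ (μ p (D.t S)) - C.ρ (μ p (D.t T))) :
    C.Tr (D.inv μ b)
      (lw (fun p b' S => cond b' (D0 p + C.ρ (μ p (D.t S))) (D0 p)) (fun p _ _ => D0 p)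
        fun p _ => D0 p)
      (lw (fun p b' S => cond b' (D0 p + U p) (D0 p + U p - C.ρ (μ p (D.t S))))
        (fun p _ _ => D0 p + U p) fun p _ => D0 p + U p)
      fun y => aD b y fun p S => cond b (-y (p, inl (false, S))) (y (p, inl (true, S))) := by
  set x0 := fun p b' S => cond b' (D0 p + C.ρ (μ p (D.t S))) (D0 p) with hx0
  set x1 := fun p b' (_ : I) => cond b' (D0 p + U p) (D0 p) with hx1
  set x2 := fun p b' S => cond b' (D0 p + U p) (D0 p + U p - C.ρ (μ p (D.t S))) with hx2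
  set a1 := fun p S T => cond (D.E S T).isSome (D0 p + C.ρ (μ p (D.t (cond b S T)))) (D0 p)
    with ha1
  set a2 := fun p S T => cond (D.E S T).isSome (D0 p + U p - C.ρ (μ p (D.t (cond b T S)))) (D0 p)
    with ha2
  have hr : ∀ (k : Fin 6) (l l' : Lw P I K → G),
      (∀ w, l' w = l w + ((D.rr μ b k w).map (fv C.ρ)).sum) →
      C.Tr (rs (D.rr μ b k)) l l' fun y => y := fun k l l' h => Cx.tr_rs _ h
  have r0 := hr 0 (lw x0 (fun p _ _ => D0 p) fun p _ => D0 p) (lw x0 a1 fun p _ => D0 p) (by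
    rintro ⟨p, ⟨b', S⟩ | ⟨S, T⟩ | i⟩
    · simp [rr, lw]
    · cases e : (D.E S T).isSome <;> simp [rr, lw, ha1, e, fv_up]
    · simp [rr, lw])
  have r1 := hr 1 (lw x0 a1 fun p _ => D0 p) (lw x1 a1 fun p _ => D0 p + U p) (by
    rintro ⟨p, ⟨_ | _, S⟩ | ⟨S, T⟩ | i⟩
    · simp [rr, lw, hx0, hx1]
    · simp only [rr, lw, hx0, hx1, cond, fv_up, h1]; abel
    · simp [rr, lw]
    · simp only [rr, lw, fv_up, he])
  have r2 := hr 2 (lw x1 a1 fun p _ => D0 p + U p) (lw x1 a1 fun p _ => D0 p) (by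
    rintro ⟨p, ⟨b', S⟩ | ⟨S, T⟩ | i⟩
    · simp [rr, lw]
    · simp [rr, lw]
    · simp only [rr, lw, fv_dn, he]; abel)
  have r3 := hr 3 (lw x1 a1 fun p _ => D0 p) (lw x2 a2 fun p _ => D0 p) (by
    rintro ⟨p, ⟨_ | _, S⟩ | ⟨S, T⟩ | i⟩
    · simp only [rr, lw, hx2, hx1, cond, fv_up, h1]; abel
    · simp [rr, lw, hx2, hx1]
    · cases e : (D.E S T).isSome
      · simp [rr, lw, ha1, ha2, e]
      · cases b <;> simp only [rr, lw, ha1, ha2, e, cond, fv_up, h2 p S T e] <;> abel
    · simp [rr, lw])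
  have r4 := hr 4 (lw x2 a2 fun p _ => D0 p) (lw x2 a2 fun p _ => D0 p + U p) (by
    rintro ⟨p, ⟨b', S⟩ | ⟨S, T⟩ | i⟩
    · simp [rr, lw]
    · simp [rr, lw]
    · simp only [rr, lw, fv_up, he])
  have r5 := hr 5 (lw x2 a2 fun p _ => D0 p + U p)
      (lw x2 (fun p _ _ => D0 p + U p) fun p _ => D0 p + U p) (by
    rintro ⟨p, ⟨b', S⟩ | ⟨S, T⟩ | i⟩
    · simp [rr, lw]
    · cases e : (D.E S T).isSome
      · simp only [rr, lw, ha2, e, cond, fv_up, he]
      · simp [rr, lw, ha2, e, fv_up]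
    · simp [rr, lw])
  cases b
  · refine (((((((((((((((tr_gE hS false true fun _ _ _ _ => rfl).append
      (tr_gJ hS false true fun _ _ _ => rfl)).append r0).append
      (tr_gV hS false false fun p S T e => by simp [lw, ha1, hx0, e])).append r1).append
      (tr_gG hS false false fun _ _ _ => rfl)).append r2).append
      (tr_gJ hS false false fun _ _ _ => rfl)).append r3).append
      (tr_gE hS false false fun p S T e => by simp [lw, ha2, hx2, e])).append r4).append
      (tr_gG hS false true fun _ _ _ => rfl)).append r5).append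
      (tr_gV hS false true fun _ _ _ _ => rfl))).cast fun y => funext ?_
    rintro ⟨p, ⟨_ | _, S⟩ | ⟨S, T⟩ | i⟩
    · have := sum_id hS S fun T => y (p, inl (true, T))
      simp [aD, lw, smul_add, Finset.sum_add_distrib]
      rw [← this]; abel
    · simp [aD, lw]
    · simp [aD, lw]
    · simp [aD, lw]
  · refine (((((((((((((((tr_gV hS true false fun _ _ _ _ => rfl).append
      (tr_gG hS true false fun _ _ _ => rfl)).append r0).append
      (tr_gE hS true true fun p S T e => by simp [lw, ha1, hx0, e])).append r1).append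
      (tr_gJ hS true true fun _ _ _ => rfl)).append r2).append
      (tr_gG hS true true fun _ _ _ => rfl)).append r3).append
      (tr_gV hS true true fun p S T e => by simp [lw, ha2, hx2, e])).append r4).append
      (tr_gJ hS true false fun _ _ _ => rfl)).append r5).append
      (tr_gE hS true false fun _ _ _ _ => rfl))).cast fun y => funext ?_
    rintro ⟨p, ⟨_ | _, S⟩ | ⟨S, T⟩ | i⟩
    · simp [aD, lw]
    · have := sum_id hS S fun T => y (p, inl (false, T))
      simp [aD, lw, smul_add, Finset.sum_add_distrib]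
      rw [← this]; abel
    · simp [aD, lw]
    · simp [aD, lw]

end Des

end Vale.Agent.P338Z.Net
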