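import Vale.Agent.P338Z.Net.Gen3

/-!
P338 power saving: the three stages; all wires.
-/

namespace Vale.Agent.P338Z.Net

open Sum

variable {I K L σ Λ R G M α : Type} {n : ℕ}

/-- All wires: data, auxiliary wires of the three stages, idle wires. -/
abbrev Gw (I K : Type) (n : ℕ) : Type :=
  (Bool × I × I × I) ⊕ (Fin 3 × (I × I) × ((I × I) ⊕ K)) ⊕ Fin n

/-- Functions on all wires. -/
def gl (d : Bool → I × I × I → α) (a : Fin 3 → I × I → α) (z : α) : Gw I K n → α
  | inl (b, s) => d b s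
  | inr (inl (j, p, _)) => a j p
  | inr (inr _) => z

/-- The wires of the stage `j`. -/
def em (n : ℕ) (j : Fin 3) (q : (I × I) × I ≃ I × I × I) : Lw (I × I) I K → Gw I K n
  | (p, inl (b, S)) => inl (b, q (p, S))
  | (p, inr z) => inr (inl (j, p, z))

theorem em_inj (j : Fin 3) (q : (I × I) × I ≃ I × I × I) :
    Function.Injective (em (K := K) n j q) := by
  rintro ⟨p, ⟨b, S⟩ | z⟩ ⟨p', ⟨b', S'⟩ | z'⟩ h <;> simp_all [em]

/-- The index with the coordinate `S` at the first place. -/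
def q0 : (I × I) × I ≃ I × I × I := Equiv.prodComm _ _

/-- At the second place. -/
def q1 : (I × I) × I ≃ I × I × I :=
  ⟨fun z => (z.1.1, z.2, z.1.2), fun z => ((z.1, z.2.2), z.2.1), fun _ => rfl, fun _ => rfl⟩

/-- At the third place. -/
def q2 : (I × I) × I ≃ I × I × I := Equiv.prodAssoc _ _ _

/-- Products of lists. -/
def p3 (a b c : List L) : List (L × L × L) :=
  a.flatMap fun x => b.flatMap fun y => c.map fun z => (x, y, z)

theorem len_p3 (a b c : List L) : (p3 a b c).length = a.length * (b.length * c.length) := by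
  simp [p3, List.length_flatMap]

theorem mem_p3 {A : L → Prop} {a b c : List L} (ha : ∀ x ∈ a, A x) (hb : ∀ x ∈ b, A x)
    (hc : ∀ x ∈ c, A x) : ∀ l ∈ p3 a b c, A l.1 ∧ A l.2.1 ∧ A l.2.2 := fun l hl => by
  simp only [p3, List.mem_flatMap, List.mem_map] at hl
  obtain ⟨x, hx, y, hy, z, hz, rfl⟩ := hl
  exact ⟨ha x hx, hb y hy, hc z hz⟩

section

variable [AddCommGroup G]

/-- Sums over products of lists. -/
def n3 (ρ : L → L → L → G) (a b c : List L) : G :=
  (a.map fun x => (b.map fun y => (c.map fun z => ρ x y z).sum).sum).sum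

theorem sum_fm {β γ : Type} (l : List β) (f : β → List γ) (g : γ → G) :
    ((l.flatMap f).map g).sum = (l.map fun x => ((f x).map g).sum).sum := by
  induction l with
  | nil => rfl
  | cons a l ih => simp [ih]

theorem sum_p3 (ρ : L → L → L → G) (a b c : List L) :
    ((p3 a b c).map fun l => ρ l.1 l.2.1 l.2.2).sum = n3 ρ a b c := by
  simp only [p3, sum_fm, n3, List.map_map, Function.comp_def]

theorem lift2 {f : L → L → G} {l e : List L} {t : L}
    (h : ∀ c, (l.map fun b => f b c).sum = (e.map fun b => f b c).sum - f t c) (k : List L) :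
    (l.map fun b => (k.map (f b)).sum).sum =
      (e.map fun b => (k.map (f b)).sum).sum - (k.map (f t)).sum := by
  induction k with
  | nil => simp
  | cons c k ih =>
    simp only [List.map_cons, List.sum_cons, List.sum_map_add, ih, h]
    abel

theorem sub1 {f g h : L → G} (e : ∀ a, f a = g a - h a) (k : List L) :
    (k.map f).sum = (k.map g).sum - (k.map h).sum := by
  induction k with
  | nil => simp
  | cons c k ih =>
    simp only [List.map_cons, List.sum_cons, ih, e]
    abel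

variable {ρ : L → L → L → G} {e l : List L} {t : L}

theorem Dec.one (h : Dec ρ e (t :: l)) (b c : L) :
    (l.map fun a => ρ a b c).sum = (e.map fun a => ρ a b c).sum - ρ t b c ∧
    (l.map fun a => ρ b a c).sum = (e.map fun a => ρ b a c).sum - ρ b t c ∧
    (l.map fun a => ρ b c a).sum = (e.map fun a => ρ b c a).sum - ρ b c t := by
  obtain ⟨h1, h2, h3⟩ := h b c
  rw [← h1, ← h2, ← h3]
  simp

theorem Dec.tri (h : Dec ρ e (t :: l)) (b c : List L) :
    n3 ρ l b c = n3 ρ e b c - n3 ρ [t] b c ∧ n3 ρ b l c = n3 ρ b e c - n3 ρ b [t] c ∧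
      n3 ρ b c l = n3 ρ b c e - n3 ρ b c [t] := by
  simp only [n3, List.map_cons, List.map_nil, List.sum_cons, List.sum_nil, add_zero]
  exact ⟨lift2 (f := fun x y => (c.map fun z => ρ x y z).sum)
      (fun y => lift2 (f := fun x z => ρ x y z) (fun z => (h.one y z).1) c) b,
    sub1 (fun x => lift2 (f := fun y z => ρ x y z) (fun z => (h.one x z).2.1) c) b,
    sub1 (fun x => sub1 (fun y => (h.one x y).2.2) c) b⟩

end

/-- Adding to the data of the side `b`. -/
def gD [AddCommGroup M] (b : Bool) (y : Gw I K n → M) (z : I × I × I → M) : Gw I K n → M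
  | inl (b', s) => y (inl (b', s)) + if b' = b then z s else 0
  | inr w => y (inr w)

theorem Des.tr_stage [CommRing R] [AddCommGroup G] [AddCommGroup M] [Module R M]
    {D : Des I K L σ} [Fintype I] [Fintype K] [DecidableEq I] [DecidableEq (Gw I K n)]
    {C : Cx σ Λ R G M} (hS : D.Sc C.sc) (b : Bool) (j : Fin 3) (q : (I × I) × I ≃ I × I × I)
    {μ : I × I → L → Λ} (D0 U : I × I → G) (he : ∀ p, ((D.e.map (μ p)).map C.ρ).sum = U p)
    (h1 : ∀ p T, (((D.c1 T).map (μ p)).map C.ρ).sum = U p - C.ρ (μ p (D.t T)))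
    (h2 : ∀ p S T, (D.E S T).isSome →
      (((D.c2 S T).map (μ p)).map C.ρ).sum = U p - C.ρ (μ p (D.t S)) - C.ρ (μ p (D.t T)))
    {d d' : Bool → I × I × I → G} {a a' : Fin 3 → I × I → G} {z : G}
    (hd : ∀ b' p S, d b' (q (p, S)) = cond b' (D0 p + C.ρ (μ p (D.t S))) (D0 p))
    (hd' : ∀ b' p S, d' b' (q (p, S)) = cond b' (D0 p + U p) (D0 p + U p - C.ρ (μ p (D.t S))))
    (ha : ∀ p, a j p = D0 p) (ha' : ∀ p, a' j p = D0 p + U p)
    (ho : ∀ j' p, j' ≠ j → a' j' p = a j' p) :
    C.Tr ((D.inv μ b).map (NI.map (em n j q))) (gl d a z) (gl d' a' z)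
      fun y => gD b y fun s => cond b (-y (inl (false, s))) (y (inl (true, s))) := by
  classical
  have h := Des.tr_inv hS b D0 U he h1 h2
  have e : ∀ {f : Lw (I × I) I K → G} {x u v}, (∀ p b S, x p b S = f (p, inl (b, S))) →
      (∀ p S T, u p S T = f (p, inr (inl (S, T)))) → (∀ p i, v p i = f (p, inr (inr i))) →
      lw x u v = f := fun h1 h2 h3 => funext <| by
    rintro ⟨p, ⟨b', S⟩ | ⟨S, T⟩ | i⟩
    exacts [h1 .., h2 .., h3 ..]
  rw [e (f := fun w => gl d a z (em n j q w)) (fun _ _ _ => (hd ..).symm)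
    (fun _ _ _ => (ha _).symm) fun _ _ => (ha _).symm,
    e (f := fun w => gl d' a' z (em n j q w)) (fun _ _ _ => (hd' ..).symm)
    (fun _ _ _ => (ha' _).symm) fun _ _ => (ha' _).symm] at h
  refine Cx.Tr.emb (em_inj j q) h ?_ ?_
  · rintro y ⟨p, ⟨b', S⟩ | ⟨S, T⟩ | i⟩ <;> rfl
  · rintro (⟨b', s⟩ | ⟨j', p, w⟩ | i) hw
    · exact (hw ((q.symm s).1, inl (b', (q.symm s).2)) (by simp [em])).elim
    · exact ⟨ho j' p fun e => hw (p, inr w) (by rw [e]; rfl), fun _ => rfl⟩
    · exact ⟨rfl, fun _ => rfl⟩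

end Vale.Agent.P338Z.Net
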